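import Vale.Agent.P011.H428.C2Nrd

/-!
# Binary hermitian forms over global function fields are universal (helper428)
-/

open Module

set_option linter.unusedSectionVars false
set_option linter.unusedSimpArgs false

namespace Vale.Agent.P011.H428

open Vale.Agent.P011.H228 Vale.Agent.P011.H271 Vale.Agent.P011.H305

variable {k K D : Type} [Field k] [Field K] [StarRing K] [DivisionRing D] [StarRing D]
  [Algebra k K] [Algebra k D] [Algebra K D] [IsScalarTower k K D] {d : kˣ} {s : K} {n : ℕ}

/-- The form `x b x* + y g y*`. -/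
def bin (hS : SetF k K D d s) (b g : D) : (D × D) →ₗ[k] (D × D) →ₗ[k] D :=
  LinearMap.mk₂ k (fun x y => x.1 * b * star y.1 + x.2 * g * star y.2)
    (fun x y z => by
      rw [Prod.fst_add, Prod.snd_add, add_mul, add_mul, add_mul, add_mul]
      abel)
    (fun c x y => by
      rw [Prod.smul_fst, Prod.smul_snd, smul_mul_assoc, smul_mul_assoc, smul_mul_assoc,
        smul_mul_assoc, smul_add])
    (fun x y z => by
      rw [Prod.fst_add, Prod.snd_add, star_add, star_add, mul_add, mul_add]
      abel)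
    (fun c x y => by
      rw [Prod.smul_fst, Prod.smul_snd, hS.star_smulk, hS.star_smulk, mul_smul_comm,
        mul_smul_comm, smul_add])

theorem bin_apply (hS : SetF k K D d s) (b g : D) (x y : D × D) :
    bin hS b g x y = x.1 * b * star y.1 + x.2 * g * star y.2 := rfl

/-- **Every symmetric element is represented by every binary hermitian form.** -/
theorem repF [GFF k] (hS : SetF k K D d s) (hdeg : finrank K D = n ^ 2) {b g c : D}
    (hb : star b = b) (hg : star g = g) (hb0 : b ≠ 0) (hg0 : g ≠ 0) (hc : star c = c) :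
    ∃ x y : D, x * b * star x + y * g * star y = c := by
  have := hS.fin
  have := fin_kD hS
  by_cases han : ∀ x : D × D, bin hS b g x x = 0 → x = 0
  · obtain ⟨x, hx⟩ := herm_univ hS hdeg (bin hS b g) (fun x => by
      rw [bin_apply, star_add, star_mul, star_mul, star_star, star_mul, star_mul, star_star, hb,
        hg, mul_assoc, mul_assoc]) han (by rw [finrank_prod, finrank_kD hS hdeg]; omega) hc
    exact ⟨x.1, x.2, hx⟩
  · push Not at han
    obtain ⟨⟨u, v⟩, huv, h0⟩ := han
    rw [bin_apply] at huv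
    change u * b * star u + v * g * star v = 0 at huv
    have hu : u ≠ 0 := by
      rintro rfl
      rw [zero_mul, zero_mul, zero_add] at huv
      have hv : v = 0 := by
        by_contra hv
        exact mul_ne_zero (mul_ne_zero hv hg0) (star_ne_zero.mpr hv) huv
      exact h0 (by rw [hv]; rfl)
    have hv : v ≠ 0 := by
      rintro rfl
      rw [zero_mul, zero_mul, add_zero] at huv
      exact mul_ne_zero (mul_ne_zero hu hb0) (star_ne_zero.mpr hu) huv
    have h2 := hS.two_ne
    have h2D := two_ne_D hS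
    -- `x = (α + 1) p`, `y = (α - 1)`, with `p = v⁻¹ u`, `p b p* = - g`
    obtain ⟨p, hp⟩ : ∃ p, p = v⁻¹ * u := ⟨_, rfl⟩
    have hp1 : p * b * star p = -g := by
      rw [hp, star_mul, star_inv₀]
      have h1 : u * b * star u = -(v * g * star v) := eq_neg_of_add_eq_zero_left huv
      have hsv : star v ≠ 0 := star_ne_zero.mpr hv
      calc v⁻¹ * u * b * (star u * (star v)⁻¹) = v⁻¹ * (u * b * star u) * (star v)⁻¹ := by
            simp only [mul_assoc]
        _ = -g := by
            rw [h1, mul_neg, neg_mul, mul_assoc v, inv_mul_cancel_left₀ hv,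
              mul_inv_cancel_right₀ hsv]
    -- the element `α` with `-2 (α g + g α*) = c`
    obtain ⟨α, hα⟩ : ∃ α : D, α = -((4 : D)⁻¹ * c * g⁻¹) := ⟨_, rfl⟩
    have h4 : (4 : D) ≠ 0 := by
      have : (4 : D) = 2 * 2 := by norm_num
      rw [this]
      exact mul_ne_zero h2D h2D
    have h4c : ∀ x : D, (4 : D)⁻¹ * x = x * (4 : D)⁻¹ := by
      intro x
      have h5 : (4 : D) * x = x * 4 := (Nat.cast_commute 4 x).eq
      calc (4 : D)⁻¹ * x = (4 : D)⁻¹ * (x * 4) * (4 : D)⁻¹ := by
            rw [mul_assoc, mul_inv_cancel_right₀ h4]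
        _ = x * (4 : D)⁻¹ := by rw [← h5, inv_mul_cancel_left₀ h4]
    have hs4 : star (4 : D)⁻¹ = (4 : D)⁻¹ := by
      rw [star_inv₀, star_ofNat]
    have h5 : α * g = -((4 : D)⁻¹ * c) := by
      rw [hα, neg_mul, mul_assoc _ g⁻¹, inv_mul_cancel₀ hg0, mul_one]
    have h6 : g * star α = -((4 : D)⁻¹ * c) := by
      have h7 := congrArg star h5
      rw [star_mul, hg, star_neg, star_mul, hc, hs4, ← h4c] at h7
      exact h7
    refine ⟨(α + 1) * p, α - 1, ?_⟩
    have h8 : (α + 1) * p * b * star ((α + 1) * p) = -((α + 1) * g * star (α + 1)) := by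
      rw [star_mul]
      calc (α + 1) * p * b * (star p * star (α + 1)) =
          (α + 1) * (p * b * star p) * star (α + 1) := by simp only [mul_assoc]
        _ = _ := by rw [hp1, mul_neg, neg_mul]
    rw [h8, star_add, star_sub, star_one]
    have h9 : -((α + 1) * g * (star α + 1)) + (α - 1) * g * (star α - 1) =
        -((2 : D) * (α * g + g * star α)) := by
      noncomm_ring
    rw [h9, h5, h6]
    have h10 : (2 : D) * (-((4 : D)⁻¹ * c) + -((4 : D)⁻¹ * c)) = -c := by
      have h11 : -((4 : D)⁻¹ * c) + -((4 : D)⁻¹ * c) = -(2 * ((4 : D)⁻¹ * c)) := by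
        rw [two_mul, neg_add]
      rw [h11, mul_neg, ← mul_assoc, ← mul_assoc]
      have h12 : (2 : D) * 2 * (4 : D)⁻¹ = 1 := by
        have : (2 : D) * 2 = 4 := by norm_num
        rw [this, mul_inv_cancel₀ h4]
      rw [h12, one_mul]
    rw [h10, neg_neg]

/-- Both coordinates may be taken nonzero. -/
theorem repF_ne [GFF k] [Infinite k] (hS : SetF k K D d s) (hdeg : finrank K D = n ^ 2)
    {b g c : D} (hb : star b = b) (hg : star g = g) (hb0 : b ≠ 0) (hg0 : g ≠ 0)
    (hc : star c = c) (hc0 : c ≠ 0) :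
    ∃ x y : D, x ≠ 0 ∧ y ≠ 0 ∧ x * b * star x + y * g * star y = c := by
  have h2D := two_ne_D hS
  -- one coordinate zero: apply a reflection
  have key : ∀ b g : D, star b = b → star g = g → b ≠ 0 → g ≠ 0 → ∀ x : D, x ≠ 0 →
      x * b * star x = c → ∃ x' y' : D, x' ≠ 0 ∧ y' ≠ 0 ∧
        x' * b * star x' + y' * g * star y' = c := by
    intro b g hb hg hb0 hg0 x hx0 hx
    obtain ⟨μ, hμ0, hμ1, hμ2⟩ : ∃ μ : k, μ ≠ 0 ∧ b + (μ * μ) • g ≠ 0 ∧ (μ * μ) • g ≠ b := by
      have hfin : ∀ e : D, {μ : k | (μ * μ) • g = e}.Finite := by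
        intro e
        rcases Set.eq_empty_or_nonempty {μ : k | (μ * μ) • g = e} with h | ⟨μ0, h0⟩
        · rw [h]; exact Set.finite_empty
        · refine Set.Finite.subset (Set.toFinite {μ0, -μ0}) fun μ hμ => ?_
          have h1 : (μ * μ) • g = (μ0 * μ0) • g := by
            rw [show (μ * μ) • g = e from hμ, show (μ0 * μ0) • g = e from h0]
          have h2 : μ * μ = μ0 * μ0 := smul_left_injective k hg0 h1
          rcases mul_self_eq_mul_self_iff.mp h2 with h | h
          · exact Or.inl h
          · exact Or.inr h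
      obtain ⟨μ, hμ⟩ := ((((Set.finite_singleton (0 : k)).union (hfin (-b))).union
        (hfin b))).exists_notMem
      simp only [Set.mem_union, Set.mem_singleton_iff, Set.mem_ofPred_eq, not_or] at hμ
      obtain ⟨⟨h1, h2⟩, h3⟩ := hμ
      refine ⟨μ, h1, fun h => h2 ?_, h3⟩
      rw [add_comm] at h
      exact eq_neg_of_add_eq_zero_left h
    obtain ⟨L, hL⟩ : ∃ L, L = b + (μ * μ) • g := ⟨_, rfl⟩
    rw [← hL] at hμ1
    have hLs : star L = L := by rw [hL, star_add, hb, hS.star_smulk, hg]
    have h2c : ∀ x : D, (2 : D) * x = x * 2 := fun x => (Nat.cast_commute 2 x).eq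
    obtain ⟨e, he⟩ : ∃ e, e = 2 * b * L⁻¹ := ⟨_, rfl⟩
    have he0 : e ≠ 0 := by
      rw [he]
      exact mul_ne_zero (mul_ne_zero h2D hb0) (inv_ne_zero hμ1)
    have hes : star e = 2 * (L⁻¹ * b) := by
      rw [he, star_mul, star_mul, star_inv₀, hLs, hb, star_ofNat, ← h2c b, ← mul_assoc,
        ← h2c (L⁻¹), mul_assoc]
    refine ⟨x * (1 - e), -(μ • (x * e)), mul_ne_zero hx0 ?_, ?_, ?_⟩
    · intro h
      apply hμ2
      have h1 : L = 2 * b := by
        have h3 : (1 : D) = 2 * b * L⁻¹ := by rw [← he]; exact sub_eq_zero.mp h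
        calc L = 1 * L := (one_mul L).symm
          _ = 2 * b := by rw [h3, inv_mul_cancel_right₀ hμ1]
      rw [hL, two_mul] at h1
      exact add_left_cancel h1
    · rw [neg_ne_zero]
      exact smul_ne_zero hμ0 (mul_ne_zero hx0 he0)
    · have h1 : x * (1 - e) * b * star (x * (1 - e)) = x * ((1 - e) * b * (1 - star e)) * star x := by
        rw [star_mul, star_sub, star_one]
        simp only [mul_assoc]
      have h2 : -(μ • (x * e)) * g * star (-(μ • (x * e))) =
          x * (e * ((μ * μ) • g) * star e) * star x := by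
        rw [star_neg, neg_mul, neg_mul_neg, hS.star_smulk, star_mul]
        simp only [smul_mul_assoc, mul_smul_comm, smul_smul, mul_assoc]
      rw [h1, h2, ← add_mul, ← mul_add]
      have h3 : (1 - e) * b * (1 - star e) + e * ((μ * μ) • g) * star e = b := by
        have h4 : (1 - e) * b * (1 - star e) + e * ((μ * μ) • g) * star e =
            b - e * b - b * star e + e * (b + (μ * μ) • g) * star e := by
          noncomm_ring
        rw [h4, ← hL]
        have h5 : e * L = 2 * b := by rw [he, inv_mul_cancel_right₀ hμ1]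
        have h6 : e * b = 2 * b * (L⁻¹ * b) := by rw [he, mul_assoc]
        have h7 : b * star e = 2 * b * (L⁻¹ * b) := by
          rw [hes, ← mul_assoc, ← h2c b]
        rw [h5, h6, h7, hes]
        have h8 : (2 : D) * b * (2 * (L⁻¹ * b)) = 2 * b * (L⁻¹ * b) + 2 * b * (L⁻¹ * b) := by
          rw [two_mul (L⁻¹ * b), mul_add]
        rw [h8]
        abel
      rw [h3, hx]
  obtain ⟨x, y, hxy⟩ := repF hS hdeg hb hg hb0 hg0 hc
  rcases eq_or_ne y 0 with rfl | hy0
  · rw [zero_mul, zero_mul, add_zero] at hxy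
    refine key b g hb hg hb0 hg0 x ?_ hxy
    rintro rfl
    rw [zero_mul, zero_mul] at hxy
    exact hc0 hxy.symm
  · rcases eq_or_ne x 0 with rfl | hx0
    · rw [zero_mul, zero_mul, zero_add] at hxy
      obtain ⟨y', x', hy', hx', h⟩ := key g b hg hb hg0 hb0 y hy0 hxy
      exact ⟨x', y', hx', hy', by rw [add_comm]; exact h⟩
    · exact ⟨x, y, hx0, hy0, hxy⟩

end Vale.Agent.P011.H428
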