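import Vale.Agent.P011.H428.C2Nrd

/-!
# The reduced unitary Whitehead group over global function fields (helper428)

Last step: from `SK_1(D) = 1` to the unitary group, with symmetric elements of given reduced norm.
-/

open Module

set_option linter.unusedSectionVars false
set_option linter.unusedSimpArgs false

namespace Vale.Agent.P011.H428

open Vale.Agent.P011.H228 Vale.Agent.P011.H271 Vale.Agent.P011.H305

variable {k K D Ω : Type} [Field k] [Field K] [StarRing K] [DivisionRing D] [StarRing D]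
  [Algebra k K] [Algebra k D] [Algebra K D] [IsScalarTower k K D] [Field Ω] [Algebra K Ω]
  {d : kˣ} {s : K} {n : ℕ} {A : Type*} [CommGroup A]

/-- An element whose reduced norm is fixed by the involution is the product of an element of
reduced norm one and a symmetric element. -/
theorem exists_sym_factor [GFF k] (hS : SetF k K D d s) (hdeg : finrank K D = n ^ 2)
    (f : D →ₐ[K] Matrix (Fin n) (Fin n) Ω) {Z : D} (hZ : Z ≠ 0)
    (h : (f (star Z)).det = (f Z).det) :
    ∃ u y : D, u ≠ 0 ∧ y ≠ 0 ∧ star y = y ∧ (f u).det = 1 ∧ Z = u * y := by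
  have := hS.fin
  have := hS.cen
  have := fin_kD hS
  have hn := pos_of_deg hdeg
  have hne : Nonempty (Fin n) := ⟨⟨0, hn⟩⟩
  obtain ⟨ν, hν⟩ := H268.exists_nrd hn hdeg f Z
  have hs := H268.nrd_star hn hdeg (star_algK hS) f Z hν
  obtain ⟨c, hc⟩ := (hS.fix ν).mp ((algebraMap K Ω).injective (by rw [← hs, h, hν]))
  obtain ⟨y, hy, hyd⟩ := exists_sym_nrd hS hdeg f c
  have hZ0 := det_ne_zero_of f hZ
  have hyZ : (f y).det = (f Z).det := by rw [hyd, hν, hc]
  have hy0 : y ≠ 0 := by
    rintro rfl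
    rw [map_zero, Matrix.det_zero] at hyZ
    exact hZ0 hyZ.symm
  refine ⟨Z * y⁻¹, y, mul_ne_zero hZ (inv_ne_zero hy0), hy0, hy, ?_,
    (inv_mul_cancel_right₀ hy0 Z).symm⟩
  have h1 : (f (Z * y⁻¹)).det * (f y).det = (f Z).det := by
    rw [← Matrix.det_mul, ← map_mul, inv_mul_cancel_right₀ hy0]
  rw [hyZ] at h1
  exact mul_right_cancel₀ hZ0 (by rw [h1, one_mul])

/-- **The reduced unitary Whitehead group is trivial over global function fields**, given that
the reduced Whitehead group is. -/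
theorem suk_all_of [GFF k] (hS : SetF k K D d s) (hdeg : finrank K D = n ^ 2)
    (f : D →ₐ[K] Matrix (Fin n) (Fin n) Ω) (F0 : D → A)
    (hmul : ∀ a b : D, a ≠ 0 → b ≠ 0 → F0 (a * b) = F0 a * F0 b)
    (hsym : ∀ s : D, s ≠ 0 → star s = s → F0 s = 1)
    (hk1 : ∀ u : D, u ≠ 0 → (f u).det = 1 → F0 u = 1) {Z : D} (hZ : Z ≠ 0)
    (h : (f (star Z)).det = (f Z).det) : F0 Z = 1 := by
  obtain ⟨u, y, hu, hy0, hy, hu1, rfl⟩ := exists_sym_factor hS hdeg f hZ h
  rw [hmul u y hu hy0, hk1 u hu hu1, hsym y hy0 hy, one_mul]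

end Vale.Agent.P011.H428
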