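import Vale.Agent.P011.H228.C2
import Vale.Agent.P011.H268.GalSplit
import Vale.Agent.P011.H305.SetF
import Vale.Agent.P011.W.Defs

/-!
# Consequences of the theorem of Lang and Nagata over global function fields (helper428)

Reduced norms are surjective, also on symmetric elements and on unitary groups of rank one;
anisotropic hermitian forms of rank two are universal.
-/

open Module

set_option linter.unusedSectionVars false
set_option linter.unusedSimpArgs false

namespace Vale.Agent.P011.H428

open Vale.Agent.P011.H228 Vale.Agent.P011.H271 Vale.Agent.P011.H305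
open Vale.Agent.P011.W (HasNrd)

section c2

variable {k : Type*} [Field k] [GFF k] {V : Type*} [AddCommGroup V] [Module k V]
  [FiniteDimensional k V]

/-- **Lang-Nagata over a global function field.** -/
theorem exists_zero {ι : Type*} [Fintype ι] (d : ι → ℕ) (Φ : ι → V → k)
    (hΦ : ∀ i, IsPoly k V k (d i) (Φ i)) (h : ∑ i, d i ^ 2 < finrank k V) :
    ∃ x : V, x ≠ 0 ∧ ∀ i, Φ i x = 0 := by
  obtain ⟨F, _, _, φ, hφ1, hφ2⟩ := GFF.out (k := k)
  let _ := φ.toAlgebra
  have : FiniteDimensional (RatFunc F) k := hφ1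
  exact exists_zero_of_finite_extension F (RatFunc F) d Φ hΦ h

theorem exists_zero_one (d : ℕ) (Φ : V → k) (hΦ : IsPoly k V k d Φ) (h : d ^ 2 < finrank k V) :
    ∃ x : V, x ≠ 0 ∧ Φ x = 0 := by
  obtain ⟨x, hx, h1⟩ := exists_zero (fun _ : Fin 1 => d) (fun _ => Φ) (fun _ => hΦ)
    (by simpa using h)
  exact ⟨x, hx, h1 0⟩

theorem exists_zero_quad {W : Type*} [AddCommGroup W] [Module k W] [FiniteDimensional k W]
    (B : V →ₗ[k] V →ₗ[k] W) (h : 4 * finrank k W < finrank k V) :
    ∃ x : V, x ≠ 0 ∧ B x x = 0 := by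
  obtain ⟨F, _, _, φ, hφ1, hφ2⟩ := GFF.out (k := k)
  let _ := φ.toAlgebra
  have : FiniteDimensional (RatFunc F) k := hφ1
  exact exists_zero_bilin F (RatFunc F) B h

/-- The `k`-linear retraction of a field extension. -/
theorem exists_retr (k Ω : Type*) [Field k] [Field Ω] [Algebra k Ω] :
    ∃ π : Ω →ₗ[k] k, ∀ c, π (algebraMap k Ω c) = c := by
  obtain ⟨π, hπ⟩ := (Algebra.linearMap k Ω).exists_leftInverse_of_injective
    (LinearMap.ker_eq_bot.mpr (algebraMap k Ω).injective)
  exact ⟨π, fun c => LinearMap.congr_fun hπ c⟩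

/-- A determinant of degree `n` in at least `n ^ 2` variables without zeros takes every value. -/
theorem exists_det_eq {Ω : Type*} [Field Ω] [Algebra k Ω] {n : ℕ} (hn : 0 < n)
    (L : V →ₗ[k] Matrix (Fin n) (Fin n) Ω) (hinj : ∀ x, (L x).det = 0 → x = 0)
    (hval : ∀ x, ∃ ν : k, (L x).det = algebraMap k Ω ν) (hdim : n ^ 2 ≤ finrank k V) (c : k) :
    ∃ x, (L x).det = algebraMap k Ω c := by
  have hne : Nonempty (Fin n) := ⟨⟨0, hn⟩⟩
  rcases eq_or_ne c 0 with rfl | hc
  · refine ⟨0, ?_⟩
    rw [map_zero, Matrix.det_zero, map_zero]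
  obtain ⟨π, hπ⟩ := exists_retr k Ω
  have h1 : IsPoly k (V × k) k n (fun x => π ((L x.1).det)) := by
    have h2 := (IsPoly.det (K := k) (V := V × k) (A := Ω) (n := Fin n)
      (L.comp (LinearMap.fst k V k))).comp_left π
    simpa using h2
  have h2 : IsPoly k (V × k) k n (fun x => x.2 ^ n * c) := by
    have h3 := IsPoly.basic (K := k) (V := V × k) (W := k) (d := n) (m := n) hn le_rfl
      (fun _ => LinearMap.snd k V k) c
    simpa using h3
  obtain ⟨⟨x, t⟩, hx0, hx⟩ := exists_zero_one n _ (h1.sub h2) (by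
    rw [finrank_prod, finrank_self]
    omega)
  obtain ⟨ν, hν⟩ := hval x
  have h3 : ν = t ^ n * c := by
    have h4 : π ((L x).det) - t ^ n * c = 0 := hx
    rw [hν, hπ] at h4
    exact sub_eq_zero.mp h4
  have ht : t ≠ 0 := by
    rintro rfl
    have h4 : x = 0 := hinj x (by rw [hν, h3, zero_pow hn.ne', zero_mul, map_zero])
    exact hx0 (by rw [h4]; rfl)
  refine ⟨t⁻¹ • x, ?_⟩
  rw [map_smul, ← algebraMap_smul Ω (t⁻¹) (L x), Matrix.det_smul, Fintype.card_fin, hν, h3,
    ← map_pow, ← map_mul]
  congr 1
  rw [inv_pow, inv_mul_cancel_left₀ (pow_ne_zero n ht)]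

end c2

section nrd

variable {K D : Type*} [Field K] [DivisionRing D] [Algebra K D] [FiniteDimensional K D]
  [Algebra.IsCentral K D] {n : ℕ}

theorem pos_of_deg (hD : finrank K D = n ^ 2) : 0 < n := by
  have h : 0 < finrank K D := finrank_pos
  rw [hD] at h
  exact Nat.pos_of_ne_zero fun h0 => by
    rw [h0] at h
    simp at h

theorem det_ne_zero_of {Ω : Type*} [Field Ω] [Algebra K Ω] (f : D →ₐ[K] Matrix (Fin n) (Fin n) Ω)
    {x : D} (hx : x ≠ 0) : (f x).det ≠ 0 := by
  intro h0
  have h5 : (f (x * x⁻¹)).det = 0 := by rw [map_mul, Matrix.det_mul, h0, zero_mul]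
  rw [mul_inv_cancel₀ hx, map_one, Matrix.det_one] at h5
  exact one_ne_zero h5

/-- **Reduced norms are surjective over global function fields.** -/
theorem exists_nrd_eq [GFF K] (hD : finrank K D = n ^ 2) {Ω : Type*} [Field Ω] [Algebra K Ω]
    (f : D →ₐ[K] Matrix (Fin n) (Fin n) Ω) (y : K) : ∃ t : D, (f t).det = algebraMap K Ω y :=
  exists_det_eq (pos_of_deg hD) f.toLinearMap
    (fun x hx => by by_contra h0; exact det_ne_zero_of f h0 hx)
    (fun x => H268.exists_nrd (pos_of_deg hD) hD f x) hD.ge y

end nrd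

section herm

variable {k K D : Type} [Field k] [Field K] [StarRing K] [DivisionRing D] [StarRing D]
  [Algebra k K] [Algebra k D] [Algebra K D] [IsScalarTower k K D] {d : kˣ} {s : K} {n : ℕ}

/-- The symmetric elements. -/
def symS (hS : SetF k K D d s) : Submodule k D where
  carrier := {x | star x = x}
  zero_mem' := star_zero D
  add_mem' {x y} hx hy := by
    change star (x + y) = x + y
    rw [star_add]
    exact congrArg₂ _ hx hy
  smul_mem' c x hx := by
    change star (c • x) = c • x
    rw [hS.star_smulk]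
    exact congrArg _ hx

/-- The skew elements. -/
def skewS (hS : SetF k K D d s) : Submodule k D where
  carrier := {x | star x = -x}
  zero_mem' := by change star (0 : D) = -0; rw [star_zero, neg_zero]
  add_mem' {x y} hx hy := by
    change star (x + y) = -(x + y)
    rw [star_add, neg_add]
    exact congrArg₂ _ hx hy
  smul_mem' c x hx := by
    change star (c • x) = -(c • x)
    rw [hS.star_smulk, ← smul_neg]
    exact congrArg _ hx

variable (hS : SetF k K D d s)
include hS

theorem mem_symS {x : D} : x ∈ symS hS ↔ star x = x := Iff.rfl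

theorem mem_skewS {x : D} : x ∈ skewS hS ↔ star x = -x := Iff.rfl

theorem two_ne_D : (2 : D) ≠ 0 := by
  rw [← map_ofNat (algebraMap k D) 2]
  exact (map_ne_zero _).mpr hS.two_ne

theorem fin_kK : FiniteDimensional k K := FiniteDimensional.of_finrank_pos (by
  rw [hS.rank]; exact two_pos)

theorem fin_kD : FiniteDimensional k D := by
  have := hS.fin
  have := fin_kK hS
  exact FiniteDimensional.trans k K D

theorem eq_zero_of_neg {x : D} (h : x = -x) : x = 0 := by
  have h1 : (2 : D) * x = 0 := by
    rw [two_mul]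
    nth_rewrite 1 [h]
    exact neg_add_cancel x
  exact (mul_eq_zero.mp h1).resolve_left (two_ne_D hS)

/-- The element `s` multiplies symmetric elements to skew elements. -/
theorem star_smul_s (x : D) : star (s • x) = -(s • star x) := by
  rw [hS.star_smul, hS.star_s, neg_smul]

/-- Multiplication by `s` between symmetric and skew elements. -/
theorem finrank_sym_eq_skew : finrank k (symS hS) = finrank k (skewS hS) := by
  have := fin_kD hS
  let m : D →ₗ[k] D := (LinearMap.lsmul K D s).restrictScalars k
  have hm : ∀ x, m x = s • x := fun _ => rfl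
  have hminj : ∀ x, s • x = 0 → x = (0 : D) := fun x hx =>
    (smul_eq_zero.mp hx).resolve_left hS.s_ne
  apply le_antisymm
  · let φ : symS hS →ₗ[k] skewS hS := (m.comp (symS hS).subtype).codRestrict (skewS hS) (by
      intro x
      rw [mem_skewS]
      change star (s • (x : D)) = -(s • (x : D))
      rw [star_smul_s hS, (mem_symS hS).mp x.2])
    refine LinearMap.finrank_le_finrank_of_injective (f := φ) ?_
    rw [injective_iff_map_eq_zero]
    intro x hx
    have h1 : s • (x : D) = 0 := congrArg Subtype.val hx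
    exact Subtype.ext (hminj _ h1)
  · let φ : skewS hS →ₗ[k] symS hS := (m.comp (skewS hS).subtype).codRestrict (symS hS) (by
      intro x
      rw [mem_symS]
      change star (s • (x : D)) = s • (x : D)
      rw [star_smul_s hS, (mem_skewS hS).mp x.2, smul_neg, neg_neg])
    refine LinearMap.finrank_le_finrank_of_injective (f := φ) ?_
    rw [injective_iff_map_eq_zero]
    intro x hx
    have h1 : s • (x : D) = 0 := congrArg Subtype.val hx
    exact Subtype.ext (hminj _ h1)

/-- The symmetric part. -/
theorem finrank_sym_add_skew : finrank k (symS hS) + finrank k (skewS hS) = finrank k D := by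
  have := fin_kD hS
  refine Submodule.finrank_add_eq_of_isCompl ⟨?_, ?_⟩
  · rw [Submodule.disjoint_def]
    intro x hx hx'
    rw [mem_symS] at hx
    rw [mem_skewS, hx] at hx'
    exact eq_zero_of_neg hS hx'
  · rw [codisjoint_iff, Submodule.eq_top_iff']
    intro x
    rw [Submodule.mem_sup]
    have h2 := hS.two_ne
    refine ⟨(2 : k)⁻¹ • (x + star x), ?_, (2 : k)⁻¹ • (x - star x), ?_, ?_⟩
    · rw [mem_symS, hS.star_smulk, star_add, star_star, add_comm]
    · rw [mem_skewS, hS.star_smulk, star_sub, star_star, ← smul_neg, neg_sub]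
    · rw [← smul_add, add_add_sub_cancel, ← two_smul k x, smul_smul, inv_mul_cancel₀ h2, one_smul]

theorem finrank_kD (hdeg : finrank K D = n ^ 2) : finrank k D = 2 * n ^ 2 := by
  rw [← finrank_mul_finrank k K D, hS.rank, hdeg]

theorem finrank_sym (hdeg : finrank K D = n ^ 2) : finrank k (symS hS) = n ^ 2 := by
  have h1 := finrank_sym_add_skew hS
  have h2 := finrank_sym_eq_skew hS
  have h3 := finrank_kD hS hdeg
  omega

theorem finrank_skew (hdeg : finrank K D = n ^ 2) : finrank k (skewS hS) = n ^ 2 := by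
  rw [← finrank_sym_eq_skew hS, finrank_sym hS hdeg]

theorem star_algK (c : K) : star (algebraMap K D c) = algebraMap K D (star c) := by
  rw [Algebra.algebraMap_eq_smul_one, hS.star_smul, star_one, ← Algebra.algebraMap_eq_smul_one]

variable [GFF k] (hdeg : finrank K D = n ^ 2) {Ω : Type*} [Field Ω] [Algebra K Ω]
  (f : D →ₐ[K] Matrix (Fin n) (Fin n) Ω)
include hdeg

/-- **Every element of the fixed field is the reduced norm of a symmetric element.** -/
theorem exists_sym_nrd (c : k) : ∃ y : D, star y = y ∧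
    (f y).det = algebraMap K Ω (algebraMap k K c) := by
  have := hS.fin
  have := hS.cen
  have := fin_kD hS
  have hn := pos_of_deg hdeg
  let _ : Algebra k Ω := ((algebraMap K Ω).comp (algebraMap k K)).toAlgebra
  have : IsScalarTower k K Ω := IsScalarTower.of_algebraMap_eq fun _ => rfl
  obtain ⟨x, hx⟩ := exists_det_eq (k := k) (V := symS hS) (Ω := Ω) hn
    ((f.toLinearMap.restrictScalars k).comp (symS hS).subtype)
    (fun x hx => by
      by_contra h0
      exact det_ne_zero_of f (fun h => h0 (Subtype.ext h)) hx)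
    (fun x => by
      obtain ⟨ν, hν⟩ := H268.exists_nrd hn hdeg f (x : D)
      obtain ⟨c, hc⟩ := (hS.fix ν).mp (H268.star_nrd hn hdeg (star_algK hS) f
        ((mem_symS hS).mp x.2) hν)
      exact ⟨c, by
        change (f (x : D)).det = _
        rw [hν, ← hc]; rfl⟩)
    (finrank_sym hS hdeg).ge c
  exact ⟨x, (mem_symS hS).mp x.2, hx⟩

omit f in
/-- **Anisotropic hermitian forms of rank at least two are universal.** -/
theorem herm_univ {V : Type*} [AddCommGroup V] [Module k V] [FiniteDimensional k V]
    (h : V →ₗ[k] V →ₗ[k] D) (hsym : ∀ x, star (h x x) = h x x) (han : ∀ x, h x x = 0 → x = 0)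
    (hdim : 4 * n ^ 2 ≤ finrank k V) {a : D} (ha : star a = a) : ∃ x, h x x = a := by
  have := hS.fin
  have := hS.cen
  have := fin_kD hS
  obtain ⟨P, hP⟩ := (symS hS).subtype.exists_leftInverse_of_injective
    (LinearMap.ker_eq_bot.2 (symS hS).injective_subtype)
  have hP' : ∀ x : symS hS, P x = x := fun x => LinearMap.congr_fun hP x
  let B : (V × k) →ₗ[k] (V × k) →ₗ[k] symS hS := LinearMap.mk₂ k
    (fun x y => P (h x.1 y.1 - (x.2 * y.2) • a))
    (fun x y z => by
      rw [← map_add]
      congr 1
      rw [Prod.fst_add, Prod.snd_add, map_add, LinearMap.add_apply, add_mul, add_smul]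
      abel)
    (fun c x y => by
      rw [← map_smul]
      congr 1
      rw [Prod.smul_fst, Prod.smul_snd, map_smul, LinearMap.smul_apply, smul_sub, smul_eq_mul,
        smul_smul, mul_assoc])
    (fun x y z => by
      rw [← map_add]
      congr 1
      rw [Prod.fst_add, Prod.snd_add, map_add, mul_add, add_smul]
      abel)
    (fun c x y => by
      rw [← map_smul]
      congr 1
      rw [Prod.smul_fst, Prod.smul_snd, map_smul, smul_sub, smul_eq_mul, smul_smul,
        mul_left_comm])
  obtain ⟨⟨x, t⟩, hx0, hx⟩ := exists_zero_quad B (by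
    rw [finrank_sym hS hdeg, finrank_prod, finrank_self]
    omega)
  have h1 : h x x = (t * t) • a := by
    have h2 : P (h x x - (t * t) • a) = 0 := hx
    have h3 : h x x - (t * t) • a ∈ symS hS := by
      rw [mem_symS, star_sub, hsym, hS.star_smulk, ha]
    have h4 := hP' ⟨_, h3⟩
    have h5 : (⟨h x x - (t * t) • a, h3⟩ : symS hS) = 0 := by
      rw [← h4]
      exact h2
    exact sub_eq_zero.mp (congrArg Subtype.val h5)
  have ht : t ≠ 0 := by
    rintro rfl
    rw [mul_zero, zero_smul] at h1
    exact hx0 (by rw [han x h1]; rfl)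
  refine ⟨t⁻¹ • x, ?_⟩
  rw [map_smul (h (t⁻¹ • x)), map_smul h, LinearMap.smul_apply, h1, smul_smul, smul_smul,
    show t⁻¹ * t⁻¹ * (t * t) = 1 by field_simp, one_smul]

/-- **The reduced norms of the unitary group of a hermitian form of rank one are all the elements
of norm one.** -/
theorem exists_unit_nrd {h0 : D} (hh : star h0 = h0) (hh0 : h0 ≠ 0) {δ : K}
    (hδ : δ * star δ = 1) :
    ∃ z : D, z * h0 * star z = h0 ∧ (f z).det = algebraMap K Ω δ := by
  have := hS.fin
  have := hS.cen
  have := fin_kD hS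
  have hn := pos_of_deg hdeg
  have hne : Nonempty (Fin n) := ⟨⟨0, hn⟩⟩
  have h2K : (2 : K) ≠ 0 := by
    rw [← map_ofNat (algebraMap k K) 2]
    exact (map_ne_zero _).mpr hS.two_ne
  obtain ⟨ε, hε0, hε⟩ : ∃ ε : K, ε ≠ 0 ∧ star ε = δ * ε := by
    by_cases h1 : δ = -1
    · refine ⟨s, hS.s_ne, ?_⟩
      rw [h1, hS.star_s, neg_one_mul]
    · refine ⟨1 + star δ, ?_, ?_⟩
      · intro h0
        apply h1
        have h2 : star (1 + star δ) = 0 := by rw [h0, star_zero]
        rw [star_add, star_one, star_star] at h2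
        exact (neg_eq_of_add_eq_zero_right h2).symm
      · rw [star_add, star_one, star_star, mul_add, mul_one, hδ, add_comm]
  have hsε0 : star ε ≠ 0 := star_ne_zero.mpr hε0
  -- the imaginary part
  obtain ⟨πK, hπK⟩ := exists_retr K Ω
  obtain ⟨πk, hπk⟩ := exists_retr k K
  let _ : Algebra k Ω := ((algebraMap K Ω).comp (algebraMap k K)).toAlgebra
  have : IsScalarTower k K Ω := IsScalarTower.of_algebraMap_eq fun _ => rfl
  let starL : K →ₗ[k] K :=
    { toFun := star
      map_add' := star_add
      map_smul' := fun c x => by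
        rw [Algebra.smul_def, star_mul', hS.star_algebraMap, RingHom.id_apply, Algebra.smul_def] }
  have hstarL : ∀ x, starL x = star x := fun _ => rfl
  let im : K →ₗ[k] k := πk.comp (((LinearMap.lsmul K K s⁻¹).restrictScalars k).comp
    (LinearMap.id - starL))
  have him : ∀ x, im x = 0 → star x = x := by
    intro x hx
    have h1 : star (s⁻¹ • (x - star x)) = s⁻¹ • (x - star x) := by
      rw [smul_eq_mul, star_mul', star_sub, star_star, star_inv₀, hS.star_s, inv_neg, neg_mul,
        ← mul_neg, neg_sub]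
    obtain ⟨c, hc⟩ := (hS.fix _).mp h1
    have h2 : im x = πk (s⁻¹ • (x - star x)) := rfl
    rw [← hc, hπk] at h2
    rw [h2] at hx
    rw [hx, map_zero, eq_comm, smul_eq_zero] at hc
    rcases hc with h3 | h3
    · exact absurd (inv_eq_zero.mp h3) hS.s_ne
    · exact (sub_eq_zero.mp h3).symm
  let L : (k × skewS hS) →ₗ[k] D := (LinearMap.toSpanSingleton k D h0).coprod (skewS hS).subtype
  have hL : ∀ x : k × skewS hS, L x = x.1 • h0 + x.2 := fun x => rfl
  have hLinj : ∀ x, L x = 0 → x = 0 := by
    rintro ⟨t, x⟩ h1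
    rw [hL] at h1
    change t • h0 + (x : D) = 0 at h1
    have h2 := congrArg star h1
    rw [star_add, hS.star_smulk, hh, (mem_skewS hS).mp x.2, star_zero] at h2
    have h3 : (x : D) = 0 := by
      apply eq_zero_of_neg hS
      have h4 : t • h0 + (x : D) = t • h0 + -(x : D) := h1.trans h2.symm
      exact add_left_cancel h4
    rw [h3, add_zero, smul_eq_zero] at h1
    rw [h1.resolve_right hh0, Prod.mk_eq_zero]
    exact ⟨rfl, Subtype.ext h3⟩
  have hpoly : IsPoly k (k × skewS hS) k n
      (fun x => im (star ε • πK ((f (L x)).det))) := by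
    have h2 := (IsPoly.det (K := k) (V := k × skewS hS) (A := Ω) (n := Fin n)
      ((f.toLinearMap.restrictScalars k).comp L)).comp_left
        (im.comp (((LinearMap.lsmul K K (star ε)).restrictScalars k).comp
          (πK.restrictScalars k)))
    simpa using h2
  obtain ⟨x, hx0, hx⟩ := exists_zero_one n _ hpoly (by
    rw [finrank_prod, finrank_self, finrank_skew hS hdeg]
    omega)
  obtain ⟨p, hp⟩ : ∃ p, p = L x := ⟨_, rfl⟩
  have hp0 : p ≠ 0 := by
    rw [hp]
    exact fun h => hx0 (hLinj x h)
  obtain ⟨ν, hν⟩ := H268.exists_nrd hn hdeg f p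
  have hν0 : ν ≠ 0 := by
    rintro rfl
    rw [map_zero] at hν
    exact det_ne_zero_of f hp0 hν
  have hνε : star (star ε * ν) = star ε * ν := by
    apply him
    rw [← hp] at hx
    rw [hν, hπK] at hx
    exact hx
  have hνs : star ν = δ * ν := by
    rw [star_mul', star_star] at hνε
    have h1 : ε * star ν = ε * (δ * ν) := by
      rw [hνε, hε]
      ring
    exact mul_left_cancel₀ hε0 h1
  have hps : (f (star p)).det = algebraMap K Ω (star ν) :=
    H268.nrd_star hn hdeg (star_algK hS) f p hν
  have hpp : p + star p = (2 * x.1) • h0 := by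
    rw [hp, hL, star_add, hS.star_smulk, hh, (mem_skewS hS).mp x.2.2, two_mul, add_smul]
    abel
  by_cases ht : x.1 = 0
  · -- the skew case
    rw [ht, mul_zero, zero_smul] at hpp
    have h1 : star p = -p := (neg_eq_of_add_eq_zero_right hpp).symm
    refine ⟨-1, by rw [star_neg, star_one, neg_one_mul, mul_neg_one, neg_neg], ?_⟩
    rw [h1, map_neg, Matrix.det_neg, Fintype.card_fin, hν, hνs, map_mul] at hps
    have h2 : algebraMap K Ω ν ≠ 0 := (map_ne_zero _).mpr hν0
    rw [map_neg, map_one, Matrix.det_neg, Fintype.card_fin, Matrix.det_one, mul_one]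
    exact mul_right_cancel₀ h2 hps
  · have hc0 : (2 * x.1 : k) ≠ 0 := mul_ne_zero hS.two_ne ht
    have hsp0 : star p ≠ 0 := star_ne_zero.mpr hp0
    refine ⟨star p * p⁻¹, ?_, ?_⟩
    · have h1 : h0 = (2 * x.1)⁻¹ • (p + star p) := by
        rw [hpp, smul_smul, inv_mul_cancel₀ hc0, one_smul]
      have h2 : star p * p⁻¹ * (p + star p) * star (star p * p⁻¹) = p + star p := by
        rw [star_mul, star_star, star_inv₀]
        calc star p * p⁻¹ * (p + star p) * ((star p)⁻¹ * p)
            = star p * (p⁻¹ * (p + star p) * (star p)⁻¹) * p := by simp only [mul_assoc]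
          _ = star p * ((star p)⁻¹ + p⁻¹) * p := by
            rw [mul_add, inv_mul_cancel₀ hp0, add_mul, one_mul, mul_assoc p⁻¹,
              mul_inv_cancel₀ hsp0, mul_one]
          _ = p + star p := by
            rw [mul_add, mul_inv_cancel₀ hsp0, add_mul, one_mul, mul_assoc,
              inv_mul_cancel₀ hp0, mul_one]
      rw [h1, mul_smul_comm, smul_mul_assoc, h2]
    · rw [map_mul, Matrix.det_mul, hps, hνs]
      have h3 : (f p).det * (f p⁻¹).det = 1 := by
        rw [← Matrix.det_mul, ← map_mul, mul_inv_cancel₀ hp0, map_one, Matrix.det_one]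
      rw [map_mul, mul_assoc, ← hν, h3, mul_one]

end herm

end Vale.Agent.P011.H428
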