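import Vale.Agent.P011.H428.SLGap
import Vale.Agent.P011.H219.Normality

/-!
# `HasGap` for `SL(ι, F)`
-/

open scoped NNReal

namespace Vale.Agent.P011.H428

noncomputable section

universe u v w

/-- Transport of the gap property along a surjective homomorphism. -/
theorem hasGap_map {G : Type v} [Group G] {G' : Type w} [Group G'] {K : Set G} {C : ℝ≥0}
    (h : H219.HasGap.{u} G K C) (f : G →* G') (hf : Function.Surjective f) :
    H219.HasGap.{u} G' (f '' K) C := by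
  intro H _ _ _ π v η hv
  obtain ⟨w, hw, hd⟩ := h H (π.comp f) v η fun k hk => hv (f k) ⟨k, hk, rfl⟩
  refine ⟨w, fun g => ?_, hd⟩
  obtain ⟨g, rfl⟩ := hf g
  exact hw g

/-- Enlarging the generating set. -/
theorem hasGap_mono {G : Type v} [Group G] {K K' : Set G} {C : ℝ≥0}
    (h : H219.HasGap.{u} G K C) (hK : K ⊆ K') : H219.HasGap.{u} G K' C :=
  fun H _ _ _ π v η hv => h H π v η fun k hk => hv k (hK hk)

/-- Generating set by conjugates: if `v` is almost fixed by `K'` and every element of `K` is a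
product of at most `N` elements of `K'`, the gap of `K` gives a gap for `K'`. -/
theorem norm_prod_le {G : Type v} [Group G] {H : Type u} [NormedAddCommGroup H]
    [InnerProductSpace ℝ H] (π : G →* (H ≃ₗᵢ[ℝ] H)) {K' : Set G} {v : H} {η : ℝ}
    (hv : ∀ k ∈ K', ‖π k v - v‖ ≤ η) :
    ∀ l : List G, (∀ k ∈ l, k ∈ K') → ‖π l.prod v - v‖ ≤ l.length * η := by
  intro l
  induction l with
  | nil => intro _; simp
  | cons a l ih =>
    intro hl
    have h1 := ih fun k hk => hl k (List.mem_cons_of_mem _ hk)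
    have h2 := hv a (hl a List.mem_cons_self)
    have e : π (a :: l).prod v - v = π a (π l.prod v - v) + (π a v - v) := by
      rw [List.prod_cons, pi_mul_apply, map_sub]; abel
    rw [e]
    refine (norm_add_le _ _).trans ?_
    rw [(π a).norm_map]
    push_cast [List.length_cons]
    linarith

theorem hasGap_of_prod {G : Type v} [Group G] {K K' : Set G} {C : ℝ≥0} {N : ℕ}
    (h : H219.HasGap.{u} G K C)
    (hK : ∀ k ∈ K, ∃ l : List G, l.length ≤ N ∧ (∀ a ∈ l, a ∈ K') ∧ l.prod = k)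
    (hne : K'.Nonempty) :
    H219.HasGap.{u} G K' (C * N) := by
  intro H _ _ _ π v η hv
  have hη : 0 ≤ η := by
    obtain ⟨k, hk⟩ := hne
    exact (norm_nonneg _).trans (hv k hk)
  obtain ⟨w, hw, hd⟩ := h H π v (N * η) fun k hk => by
    obtain ⟨l, hl, hm, rfl⟩ := hK k hk
    refine (norm_prod_le π hv l hm).trans ?_
    have : (l.length : ℝ) ≤ N := by exact_mod_cast hl
    exact mul_le_mul_of_nonneg_right this hη
  refine ⟨w, hw, hd.trans ?_⟩
  push_cast
  rw [mul_assoc]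

variable {ι : Type*} [Fintype ι] [DecidableEq ι] {F : Type*} [Field F]

/-- `SL(ι, O)` and two neighbouring vertex stabilisers. -/
def gapSet (O : Subring F) {ϖ : F} (h0 : ϖ ≠ 0) (i₁ i₂ : ι) :
    Set (Matrix.SpecialLinearGroup ι F) :=
  {g | ∀ a b, (g : Matrix ι ι F) a b ∈ O} ∪
    (parK O (fun i => if i = i₁ then (1 : F) else ϖ)
      (fun i => by split_ifs <;> simp [h0]) : Set (Matrix.SpecialLinearGroup ι F)) ∪
    (parK O (fun i => if i = i₁ ∨ i = i₂ then (1 : F) else ϖ)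
      (fun i => by split_ifs <;> simp [h0]) : Set (Matrix.SpecialLinearGroup ι F))

/-- The gap constant. -/
def gapC (q : ℕ) : ℝ≥0 := 3 * Real.toNNReal (H219.gapConst (√q)⁻¹)

/-- **`SL(ι, F)`, `|ι| ≥ 3`, has a spectral gap with respect to three vertex stabilisers.** -/
theorem hasGap_sl {i₁ i₂ : ι} (h12 : i₁ ≠ i₂) {j₀ : ι} (hj1 : j₀ ≠ i₁) (hj2 : j₀ ≠ i₂)
    {O : Subring F} {ϖ : F} (hϖ : ϖ ∈ O) (h0 : ϖ ≠ 0) (hfrac : ∀ x : F, ∃ n : ℕ, ϖ ^ n * x ∈ O)
    {q : ℕ} (hq : 5 ≤ q) (r : Fin q → F) (hr : ∀ k, r k ∈ O)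
    (hr' : ∀ k l, k ≠ l → r l - r k ≠ 0 ∧ (r l - r k)⁻¹ ∈ O) :
    H219.HasGap.{u} (Matrix.SpecialLinearGroup ι F) (gapSet O h0 i₁ i₂) (gapC q) := by
  intro H _ _ _ π v η hv
  obtain ⟨w, hw, hd⟩ := sl_gap π h12 hj1 hj2 hϖ h0 hfrac hq r hr hr' v (η₀ := η) (η₁ := η)
    (η₂ := η) (fun g hg => hv g (Or.inl (Or.inl hg))) (fun g hg => hv g (Or.inl (Or.inr hg)))
    (fun g hg => hv g (Or.inr hg))
  refine ⟨w, hw, hd.trans (le_of_eq ?_)⟩
  have hq' : (5 : ℝ) ≤ q := by exact_mod_cast hq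
  have hlam1 : (√(q : ℝ))⁻¹ < 1 / 2 := by
    rw [inv_lt_comm₀ (Real.sqrt_pos.2 (by linarith)) (by norm_num)]
    rw [Real.lt_sqrt (by norm_num)]
    norm_num
    linarith
  have hpos := H219.gapConst_pos (lam := (√(q : ℝ))⁻¹) (by positivity) hlam1
  unfold gapC
  push_cast
  rw [Real.coe_toNNReal _ hpos.le]
  ring

end

end Vale.Agent.P011.H428
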