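import Vale.Agent.P011.H219.SubspaceGap

/-!
# Heisenberg pairs of subgroups in an isometric representation

`π : G →* (H ≃ₗᵢ[ℝ] H)`; for subgroups `X`, `Y` whose commutators lie in a subgroup `Z` commuting
with both, the angle between the fixed spaces of `X` and `Y` (relative to the common fixed space)
is at most `q^(-1/2)` if there are `q` elements of `X` whose quotients commute onto `Z`.
No topology on `G` is used.
-/

open scoped InnerProductSpace

namespace Vale.Agent.P011.H428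

noncomputable section

variable {G : Type*} [Group G] {H : Type*} [NormedAddCommGroup H] [InnerProductSpace ℝ H]

/-- Vectors fixed by all elements of `S`. -/
def fixS (π : G →* (H ≃ₗᵢ[ℝ] H)) (S : Set G) : Submodule ℝ H where
  carrier := {v | ∀ g ∈ S, π g v = v}
  add_mem' := by
    intro a b ha hb g hg
    rw [map_add, ha g hg, hb g hg]
  zero_mem' := by intro g _; exact map_zero _
  smul_mem' := by
    intro c x hx g hg
    rw [map_smul, hx g hg]

variable {π : G →* (H ≃ₗᵢ[ℝ] H)}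

theorem mem_fixS {S : Set G} {v : H} : v ∈ fixS π S ↔ ∀ g ∈ S, π g v = v := Iff.rfl

theorem fixS_anti {S T : Set G} (h : S ⊆ T) : fixS π T ≤ fixS π S :=
  fun _ hv g hg => hv g (h hg)

theorem isClosed_fixS (S : Set G) : IsClosed (fixS π S : Set H) := by
  have : (fixS π S : Set H) = ⋂ g ∈ S, {v | π g v = v} := by
    ext v; simp [mem_fixS]
  rw [this]
  refine isClosed_biInter fun g _ => isClosed_eq (π g).continuous continuous_id

instance instProjFixS [CompleteSpace H] (S : Set G) : (fixS π S).HasOrthogonalProjection := by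
  have : CompleteSpace (fixS π S) := (isClosed_fixS S).completeSpace_coe
  infer_instance

theorem pi_mul_apply (g h : G) (v : H) : π (g * h) v = π g (π h v) := by
  rw [map_mul]; rfl

theorem pi_inv_apply (g : G) (v : H) : π g⁻¹ (π g v) = v := by
  rw [← pi_mul_apply]; simp

theorem pi_apply_inv (g : G) (v : H) : π g (π g⁻¹ v) = v := by
  rw [← pi_mul_apply]; simp

theorem fixS_closure (S : Set G) : fixS π (Subgroup.closure S : Set G) = fixS π S := by
  apply le_antisymm (fixS_anti Subgroup.subset_closure)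
  intro v hv g hg
  induction hg using Subgroup.closure_induction with
  | mem x hx => exact hv x hx
  | one => simp
  | mul x y _ _ hx hy => rw [pi_mul_apply, hy, hx]
  | inv x _ hx =>
    have := pi_inv_apply (π := π) x v
    rw [hx] at this
    exact this

theorem inner_pi (g : G) (u v : H) : ⟪π g u, π g v⟫_ℝ = ⟪u, v⟫_ℝ := (π g).inner_map_map u v

theorem inner_pi_left (g : G) (u v : H) : ⟪π g u, v⟫_ℝ = ⟪u, π g⁻¹ v⟫_ℝ := by
  rw [← inner_pi g⁻¹, pi_inv_apply]

/-- The closed convex hull of an orbit. -/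
def hull (π : G →* (H ≃ₗᵢ[ℝ] H)) (Z : Subgroup G) (v : H) : Set H :=
  closure (convexHull ℝ ((fun z => π z v) '' (Z : Set G)))

theorem mem_hull_self (Z : Subgroup G) (v : H) : v ∈ hull π Z v :=
  subset_closure (subset_convexHull ℝ _ ⟨1, Z.one_mem, by simp⟩)

theorem hull_subset {Z : Subgroup G} {v : H} {C : Set H} (hC : IsClosed C) (hc : Convex ℝ C)
    (h : ∀ z ∈ Z, π z v ∈ C) : hull π Z v ⊆ C := by
  refine closure_minimal (convexHull_min ?_ hc) hC
  rintro _ ⟨z, hz, rfl⟩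
  exact h z hz

theorem hull_invariant {Z : Subgroup G} {v w : H} {z : G} (hz : z ∈ Z) (hw : w ∈ hull π Z v) :
    π z w ∈ hull π Z v := by
  have : hull π Z v ⊆ (fun w => π z w) ⁻¹' (hull π Z v) := by
    refine hull_subset (isClosed_closure.preimage (π z).continuous) ?_ ?_
    · have : Convex ℝ (hull π Z v) := (convex_convexHull ℝ _).closure
      exact this.linear_preimage ((π z).toLinearEquiv : H →ₗ[ℝ] H)
    · intro z' hz'
      refine subset_closure (subset_convexHull ℝ _ ⟨z * z', Z.mul_mem hz hz', ?_⟩)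
      simp only [pi_mul_apply]
  exact this hw

/-- The closed convex hull of an orbit contains a fixed point. -/
theorem exists_fixed_mem_hull [CompleteSpace H] (Z : Subgroup G) (v : H) :
    ∃ w ∈ hull π Z v, w ∈ fixS π (Z : Set G) := by
  have hconv : Convex ℝ (hull π Z v) := (convex_convexHull ℝ _).closure
  have hne : (hull π Z v).Nonempty := ⟨v, mem_hull_self Z v⟩
  have hcompl : IsComplete (hull π Z v) := isClosed_closure.isComplete
  obtain ⟨w, hw, hmin⟩ := exists_norm_eq_iInf_of_complete_convex hne hcompl hconv 0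
  have key := (norm_eq_iInf_iff_real_inner_le_zero hconv hw).1 hmin
  refine ⟨w, hw, fun z hz => ?_⟩
  have h1 := key (π z w) (hull_invariant hz hw)
  have h2 : ‖π z w‖ = ‖w‖ := (π z).norm_map w
  simp only [zero_sub, inner_neg_left, inner_sub_right, real_inner_self_eq_norm_sq] at h1
  have h3 : ‖π z w - w‖ ^ 2 = ‖π z w‖ ^ 2 - 2 * ⟪π z w, w⟫_ℝ + ‖w‖ ^ 2 := norm_sub_sq_real _ _
  have h6 : ⟪w, π z w⟫_ℝ = ⟪π z w, w⟫_ℝ := real_inner_comm _ _
  have h4 : ‖π z w - w‖ ^ 2 ≤ 0 := by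
    rw [h3, h2]
    rw [h6] at h1
    linarith
  have h5 : ‖π z w - w‖ = 0 := by
    have := sq_nonneg ‖π z w - w‖
    exact pow_eq_zero_iff (two_ne_zero) |>.1 (le_antisymm h4 this)
  exact sub_eq_zero.1 (norm_eq_zero.1 h5)

/-- Almost invariant under the elements of a group: close to the fixed space. -/
theorem norm_sub_proj_le_of_forall [CompleteSpace H] {Z : Subgroup G} {v : H} {η : ℝ}
    (h : ∀ z ∈ Z, ‖π z v - v‖ ≤ η) :
    ‖v - (fixS π (Z : Set G)).starProjection v‖ ≤ η := by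
  obtain ⟨w, hw, hfix⟩ := exists_fixed_mem_hull (π := π) Z v
  have h1 : w ∈ Metric.closedBall v η := by
    refine hull_subset (π := π) (Z := Z) (v := v) Metric.isClosed_closedBall
      (convex_closedBall v η) ?_ hw
    intro z hz
    rw [Metric.mem_closedBall, dist_eq_norm]
    exact h z hz
  rw [Metric.mem_closedBall, dist_eq_norm] at h1
  have h2 : ‖v - (fixS π (Z : Set G)).starProjection v‖ ≤ ‖v - w‖ := by
    rw [(fixS π (Z : Set G)).starProjection_minimal v]
    exact ciInf_le ⟨0, by rintro _ ⟨y, rfl⟩; exact norm_nonneg _⟩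
      (⟨w, hfix⟩ : fixS π (Z : Set G))
  rw [norm_sub_rev] at h1
  exact h2.trans h1

/-- If `v` is orthogonal to the `Z`-fixed vectors and `⟪π z v, w⟫` does not depend on `z ∈ Z`,
it vanishes. -/
theorem inner_eq_zero_of_const [CompleteSpace H] {Z : Subgroup G} {v w : H}
    (hv : ∀ f ∈ fixS π (Z : Set G), ⟪v, f⟫_ℝ = 0)
    (hconst : ∀ z ∈ Z, ⟪π z v, w⟫_ℝ = ⟪v, w⟫_ℝ) : ⟪v, w⟫_ℝ = 0 := by
  obtain ⟨f, hf, hfix⟩ := exists_fixed_mem_hull (π := π) Z v
  -- `f` is orthogonal to all fixed vectors, so `f = 0`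
  have h1 : ⟪f, f⟫_ℝ = 0 := by
    have : f ∈ {y : H | ⟪y, f⟫_ℝ = 0} := by
      refine hull_subset (π := π) (Z := Z) (v := v) ?_ ?_ ?_ hf
      · exact isClosed_eq (continuous_id.inner continuous_const) continuous_const
      · intro a ha b hb s t _ _ _
        simp only [Set.mem_ofPred_eq] at *
        rw [inner_add_left, real_inner_smul_left, real_inner_smul_left, ha, hb]; simp
      · intro z hz
        simp only [Set.mem_ofPred_eq]
        rw [inner_pi_left, hfix z⁻¹ (Z.inv_mem hz)]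
        exact hv f hfix
    exact this
  have h0 : f = 0 := inner_self_eq_zero.1 h1
  have h2 : f ∈ {y : H | ⟪y, w⟫_ℝ = ⟪v, w⟫_ℝ} := by
    refine hull_subset (π := π) (Z := Z) (v := v) ?_ ?_ ?_ hf
    · exact isClosed_eq (continuous_id.inner continuous_const) continuous_const
    · intro a ha b hb s t _ _ hst
      simp only [Set.mem_ofPred_eq] at *
      rw [inner_add_left, real_inner_smul_left, real_inner_smul_left, ha, hb, ← add_mul, hst,
        one_mul]
    · intro z hz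
      exact hconst z hz
  simp only [Set.mem_ofPred_eq] at h2
  rw [← h2, h0, inner_zero_left]

/-- A Heisenberg pair: `[X, Y] ⊆ Z`, `Z` commutes with `X` and `Y`, and there are `q` elements of
`X` whose quotients commute with `Y` onto `Z`. -/
structure HeisPair (X Y Z : Subgroup G) (q : ℕ) : Prop where
  comm_left : ∀ x ∈ X, ∀ z ∈ Z, z * x = x * z
  comm_right : ∀ y ∈ Y, ∀ z ∈ Z, z * y = y * z
  comm_mem : ∀ x ∈ X, ∀ y ∈ Y, ∃ z ∈ Z, x * y = y * x * z
  reps : ∃ r : Fin q → G, (∀ k, r k ∈ X) ∧ ∀ k l, k ≠ l → ∀ z ∈ Z, ∃ y ∈ Y,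
    y⁻¹ * ((r k)⁻¹ * r l) * y = (r k)⁻¹ * r l * z

variable {X Y Z : Subgroup G} {q : ℕ}

theorem HeisPair.fix_center (h : HeisPair X Y Z q) (hq : 2 ≤ q) {v : H}
    (hv : v ∈ fixS π ((X : Set G) ∪ Y)) : v ∈ fixS π (Z : Set G) := by
  obtain ⟨r, hr, hr2⟩ := h.reps
  intro z hz
  have hX : ∀ x ∈ X, π x v = v := fun x hx => hv x (Or.inl hx)
  have hY : ∀ y ∈ Y, π y v = v := fun y hy => hv y (Or.inr hy)
  obtain ⟨y, hy, e⟩ := hr2 ⟨0, by omega⟩ ⟨1, by omega⟩ (by simp [Fin.ext_iff]) z hz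
  set x := (r ⟨0, by omega⟩)⁻¹ * r ⟨1, by omega⟩ with hx
  have hxX : x ∈ X := X.mul_mem (X.inv_mem (hr _)) (hr _)
  have e2 : z = x⁻¹ * (y⁻¹ * x * y) := by rw [e]; group
  rw [e2, pi_mul_apply, pi_mul_apply, pi_mul_apply, hY y hy, hX x hxX, hY _ (Y.inv_mem hy),
    hX _ (X.inv_mem hxX)]

/-- If a closed subspace `W` is stable under the subgroup `X`, the projection of an `X`-fixed
vector to `W` is `X`-fixed. -/
theorem proj_mem_fixS {W : Submodule ℝ H} [W.HasOrthogonalProjection]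
    (hmap : ∀ x ∈ X, ∀ w ∈ W, π x w ∈ W) {u : H} (hu : u ∈ fixS π (X : Set G)) :
    W.starProjection u ∈ fixS π (X : Set G) := by
  intro x hx
  refine (Submodule.eq_starProjection_of_mem_of_inner_eq_zero (hmap x hx _
    (W.starProjection_apply_mem u)) ?_).symm
  intro w hw
  have h1 : u - π x (W.starProjection u) = π x (u - W.starProjection u) := by
    rw [map_sub, hu x hx]
  rw [h1, inner_pi_left]
  exact W.starProjection_inner_eq_zero u _ (hmap _ (X.inv_mem hx) w hw)

theorem HeisPair.map_fix (h : HeisPair X Y Z q) {x : G} (hx : x ∈ X) {w : H}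
    (hw : w ∈ fixS π ((Y : Set G) ∪ Z)) : π x w ∈ fixS π ((Y : Set G) ∪ Z) := by
  intro g hg
  rcases hg with hg | hg
  · obtain ⟨z, hz, e⟩ := h.comm_mem x⁻¹ (X.inv_mem hx) g hg
    have e' : g * x = x * (g * z) := by
      have h1 : x⁻¹ * g * x = g * z := by
        have : x⁻¹ * g * x = g * (x⁻¹ * (z * x)) := by rw [e]; group
        rw [this, h.comm_left x hx z hz]; group
      rw [← h1]; group
    rw [← pi_mul_apply, e', pi_mul_apply, pi_mul_apply, hw z (Or.inr hz), hw g (Or.inl hg)]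
  · rw [← pi_mul_apply, h.comm_left x hx g hg, pi_mul_apply, hw g (Or.inr hg)]

theorem map_fix_of_comm (h : ∀ x ∈ X, ∀ z ∈ Z, z * x = x * z) {x : G} (hx : x ∈ X) {w : H}
    (hw : w ∈ fixS π (Z : Set G)) : π x w ∈ fixS π (Z : Set G) := by
  intro g hg
  rw [← pi_mul_apply, h x hx g hg, pi_mul_apply, hw g hg]

theorem norm_sub_proj_mono {C W : Submodule ℝ H} [C.HasOrthogonalProjection]
    [W.HasOrthogonalProjection] (h : C ≤ W) (u : H) :
    ‖u - W.starProjection u‖ ≤ ‖u - C.starProjection u‖ := by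
  rw [W.starProjection_minimal u]
  exact ciInf_le ⟨0, by rintro _ ⟨y, rfl⟩; exact norm_nonneg _⟩
    (⟨C.starProjection u, h (C.starProjection_apply_mem u)⟩ : W)

/-- On the orthogonal complement of the `Z`-fixed vectors. -/
theorem HeisPair.inner_le_perp [CompleteSpace H] (h : HeisPair X Y Z q) (hq : 0 < q) {u v : H}
    (hu : u ∈ fixS π (X : Set G)) (hv : v ∈ fixS π (Y : Set G))
    (hv' : ∀ f ∈ fixS π (Z : Set G), ⟪v, f⟫_ℝ = 0) :
    ⟪u, v⟫_ℝ ≤ (√q)⁻¹ * (‖u‖ * ‖v‖) := by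
  obtain ⟨r, hr, hr2⟩ := h.reps
  -- off-diagonal terms vanish
  have hoff : ∀ k l, k ≠ l → ⟪π (r k) v, π (r l) v⟫_ℝ = 0 := by
    intro k l hkl
    have e1 : ⟪π (r k) v, π (r l) v⟫_ℝ = ⟪v, π ((r k)⁻¹ * r l) v⟫_ℝ := by
      rw [inner_pi_left, pi_mul_apply]
    rw [e1, real_inner_comm, inner_pi_left]
    refine inner_eq_zero_of_const hv' ?_
    intro z hz
    obtain ⟨y, hy, e⟩ := hr2 k l hkl z hz
    rw [← inner_pi_left, ← inner_pi_left, ← pi_mul_apply, ← e, pi_mul_apply, pi_mul_apply,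
      hv y hy, inner_pi_left, inv_inv, hv y hy]
  set s : H := ∑ k, π (r k) v with hs
  have h1 : ⟪u, s⟫_ℝ = q * ⟪u, v⟫_ℝ := by
    rw [hs, inner_sum]
    have : ∀ k, ⟪u, π (r k) v⟫_ℝ = ⟪u, v⟫_ℝ := by
      intro k
      rw [← inner_pi (r k) u v, hu _ (hr k)]
    simp [this]
  have h2 : ‖s‖ ^ 2 = q * ‖v‖ ^ 2 := by
    rw [← real_inner_self_eq_norm_sq, hs, sum_inner]
    have : ∀ k, ⟪π (r k) v, ∑ l, π (r l) v⟫_ℝ = ‖v‖ ^ 2 := by
      intro k
      rw [inner_sum, Finset.sum_eq_single k]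
      · rw [inner_pi, real_inner_self_eq_norm_sq]
      · intro l _ hl; exact hoff k l (Ne.symm hl)
      · simp
    simp [this]
  have hq' : (0 : ℝ) < q := by exact_mod_cast hq
  have h3 : ‖s‖ = √q * ‖v‖ := by
    rw [← Real.sqrt_sq (norm_nonneg s), h2, Real.sqrt_mul hq'.le, Real.sqrt_sq (norm_nonneg v)]
  have h4 : (q : ℝ) * ⟪u, v⟫_ℝ ≤ ‖u‖ * (√q * ‖v‖) := by
    rw [← h1, ← h3]; exact real_inner_le_norm u s
  have h5 : (0 : ℝ) < √q := Real.sqrt_pos.2 hq'
  have h6 : (√q)⁻¹ * (‖u‖ * ‖v‖) = (q : ℝ)⁻¹ * (‖u‖ * (√q * ‖v‖)) := by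
    have : (q : ℝ)⁻¹ * √q = (√q)⁻¹ := by
      rw [inv_mul_eq_iff_eq_mul₀ hq'.ne']
      rw [← div_eq_mul_inv, eq_div_iff h5.ne', Real.mul_self_sqrt hq'.le]
    rw [← this]; ring
  rw [h6]
  rw [le_inv_mul_iff₀ hq']
  exact h4

/-- **The angle between the fixed spaces of a Heisenberg pair.** -/
theorem HeisPair.inner_le [CompleteSpace H] (h : HeisPair X Y Z q) (hq : 2 ≤ q) {u v : H}
    (hu : u ∈ fixS π (X : Set G)) (hv : v ∈ fixS π (Y : Set G)) :
    ⟪u, v⟫_ℝ ≤ ⟪(fixS π ((X : Set G) ∪ Y)).starProjection u,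
        (fixS π ((X : Set G) ∪ Y)).starProjection v⟫_ℝ +
      (√q)⁻¹ * (‖u - (fixS π ((X : Set G) ∪ Y)).starProjection u‖ *
        ‖v - (fixS π ((X : Set G) ∪ Y)).starProjection v‖) := by
  set C := fixS π ((X : Set G) ∪ Y) with hC
  set F := fixS π (Z : Set G) with hF
  set W := fixS π ((Y : Set G) ∪ Z) with hW
  have hCF : C ≤ F := fun w hw => h.fix_center hq hw
  have hCW : C ≤ W := fun w hw g hg => by
    rcases hg with hg | hg
    · exact hw g (Or.inr hg)
    · exact hCF hw g hg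
  set u0 := F.starProjection u with hu0
  set v0 := F.starProjection v with hv0
  have hu0F : u0 ∈ F := F.starProjection_apply_mem u
  have hv0F : v0 ∈ F := F.starProjection_apply_mem v
  have hu0X : u0 ∈ fixS π (X : Set G) :=
    proj_mem_fixS (fun x hx w hw => map_fix_of_comm h.comm_left hx hw) hu
  have hv0Y : v0 ∈ fixS π (Y : Set G) :=
    proj_mem_fixS (fun x hx w hw => map_fix_of_comm h.comm_right hx hw) hv
  have hv0W : v0 ∈ W := fun g hg => by
    rcases hg with hg | hg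
    · exact hv0Y g hg
    · exact hv0F g hg
  have pu : ∀ f ∈ F, ⟪u - u0, f⟫_ℝ = 0 := fun f hf => F.starProjection_inner_eq_zero u f hf
  have pv : ∀ f ∈ F, ⟪v - v0, f⟫_ℝ = 0 := fun f hf => F.starProjection_inner_eq_zero v f hf
  have hu1 : u - u0 ∈ fixS π (X : Set G) := Submodule.sub_mem _ hu hu0X
  have hv1 : v - v0 ∈ fixS π (Y : Set G) := Submodule.sub_mem _ hv hv0Y
  have e1 : ⟪u, v⟫_ℝ = ⟪u0, v0⟫_ℝ + ⟪u - u0, v - v0⟫_ℝ := by
    have a1 : ⟪u - u0, v0⟫_ℝ = 0 := pu v0 hv0F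
    have a2 : ⟪v - v0, u0⟫_ℝ = 0 := pv u0 hu0F
    rw [real_inner_comm] at a2
    rw [inner_sub_left] at a1 ⊢
    rw [inner_sub_right] at a2 ⊢
    rw [inner_sub_right]
    linarith
  have p1 := h.inner_le_perp (by omega) hu1 hv1 pv
  have n1 : ‖u - u0‖ ≤ ‖u - C.starProjection u‖ := norm_sub_proj_mono hCF u
  have n2 : ‖v - v0‖ ≤ ‖v - C.starProjection v‖ := norm_sub_proj_mono hCF v
  have n3 : (√(q : ℝ))⁻¹ * (‖u - u0‖ * ‖v - v0‖) ≤
      (√q)⁻¹ * (‖u - C.starProjection u‖ * ‖v - C.starProjection v‖) := by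
    apply mul_le_mul_of_nonneg_left _ (by positivity)
    exact mul_le_mul n1 n2 (norm_nonneg _) (norm_nonneg _)
  -- the fixed part
  have hPW : W.starProjection u0 ∈ C := by
    have t1 : W.starProjection u0 ∈ fixS π (X : Set G) :=
      proj_mem_fixS (fun x hx w hw => h.map_fix hx hw) hu0X
    have t2 : W.starProjection u0 ∈ W := W.starProjection_apply_mem u0
    intro g hg
    rcases hg with hg | hg
    · exact t1 g hg
    · exact t2 g (Or.inl hg)
  have e2 : C.starProjection u = W.starProjection u0 := by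
    refine (Submodule.eq_starProjection_of_mem_of_inner_eq_zero hPW ?_)
    intro w hw
    have b1 : ⟪u - u0, w⟫_ℝ = 0 := pu w (hCF hw)
    have b2 : ⟪u0 - W.starProjection u0, w⟫_ℝ = 0 :=
      W.starProjection_inner_eq_zero u0 w (hCW hw)
    have : u - W.starProjection u0 = (u - u0) + (u0 - W.starProjection u0) := by abel
    rw [this, inner_add_left, b1, b2, add_zero]
  have e3 : ⟪u0, v0⟫_ℝ = ⟪C.starProjection u, C.starProjection v⟫_ℝ := by
    have c1 : ⟪u0 - W.starProjection u0, v0⟫_ℝ = 0 :=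
      W.starProjection_inner_eq_zero u0 v0 hv0W
    have c2 : ⟪v - C.starProjection v, C.starProjection u⟫_ℝ = 0 :=
      C.starProjection_inner_eq_zero v _ (C.starProjection_apply_mem u)
    have c3 : ⟪v - v0, C.starProjection u⟫_ℝ = 0 :=
      pv _ (hCF (C.starProjection_apply_mem u))
    rw [inner_sub_left] at c1 c2 c3
    rw [real_inner_comm (C.starProjection u) v0, real_inner_comm (C.starProjection u) v] at c3
    rw [real_inner_comm (C.starProjection u) v,
      real_inner_comm (C.starProjection u) (C.starProjection v)] at c2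
    rw [← e2] at c1
    linarith
  rw [e1, e3]
  linarith

theorem AngleLe.symm' {A B C : Submodule ℝ H} [C.HasOrthogonalProjection] {lam : ℝ}
    (h : H219.AngleLe A B C lam) : H219.AngleLe B A C lam := by
  intro u hu v hv
  have := h v hv u hu
  rw [real_inner_comm, real_inner_comm (C.starProjection v), mul_comm ‖u - _‖]
  exact this

/-- **Three subgroups, pairwise Heisenberg.** If `q ≥ 5` there is a spectral gap: a vector moved
little by the three pair groups is close to a vector fixed by everything. -/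
theorem three_heis_gap [CompleteSpace H] {X₁ X₂ X₃ Z₁₂ Z₂₃ Z₁₃ : Subgroup G} {q : ℕ}
    (hq : 5 ≤ q) (h12 : HeisPair X₁ X₂ Z₁₂ q) (h23 : HeisPair X₂ X₃ Z₂₃ q)
    (h13 : HeisPair X₁ X₃ Z₁₃ q) (v : H) {η₁₂ η₂₃ η₁₃ : ℝ}
    (e12 : ∀ g ∈ X₁ ⊔ X₂, ‖π g v - v‖ ≤ η₁₂) (e23 : ∀ g ∈ X₂ ⊔ X₃, ‖π g v - v‖ ≤ η₂₃)
    (e13 : ∀ g ∈ X₁ ⊔ X₃, ‖π g v - v‖ ≤ η₁₃) :
    ∃ w, (∀ g ∈ X₁ ⊔ X₂ ⊔ X₃, π g w = w) ∧
      ‖v - w‖ ≤ H219.gapConst (√q)⁻¹ * (η₁₂ + η₂₃ + η₁₃) := by
  have hq' : (5 : ℝ) ≤ q := by exact_mod_cast hq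
  have hlam0 : (0 : ℝ) ≤ (√q)⁻¹ := by positivity
  have hlam1 : (√(q : ℝ))⁻¹ < 1 / 2 := by
    rw [inv_lt_comm₀ (Real.sqrt_pos.2 (by linarith)) (by norm_num)]
    rw [Real.lt_sqrt (by norm_num)]
    norm_num
    linarith
  have hsup : ∀ X Y : Subgroup G, fixS π ((X ⊔ Y : Subgroup G) : Set G) =
      fixS π ((X : Set G) ∪ Y) := by
    intro X Y
    rw [← fixS_closure ((X : Set G) ∪ Y), Subgroup.closure_union, Subgroup.closure_eq,
      Subgroup.closure_eq]
  have key := H219.three_subspace_gap (A := fixS π ((X₁ : Set G) ∪ X₂))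
    (B := fixS π ((X₂ : Set G) ∪ X₃)) (C := fixS π ((X₁ : Set G) ∪ X₃)) hlam0 hlam1
    (isClosed_fixS _) (isClosed_fixS _) (isClosed_fixS _)
    (by
      intro u hu v hv
      have := h12.inner_le (π := π) (by omega) (u := v) (v := u)
        (fixS_anti (by intro g hg; exact Or.inl hg) hv)
        (fixS_anti (by intro g hg; exact Or.inl hg) hu)
      rw [real_inner_comm, real_inner_comm ((fixS π ((X₁ : Set G) ∪ X₂)).starProjection v),
        mul_comm ‖u - _‖]
      exact this)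
    (by
      intro u hu v hv
      have := h23.inner_le (π := π) (by omega) (u := v) (v := u)
        (fixS_anti (by intro g hg; exact Or.inr hg) hv)
        (fixS_anti (by intro g hg; exact Or.inr hg) hu)
      rw [real_inner_comm, real_inner_comm ((fixS π ((X₂ : Set G) ∪ X₃)).starProjection v),
        mul_comm ‖u - _‖]
      exact this)
    (by
      intro u hu v hv
      exact h13.inner_le (π := π) (by omega) (u := u) (v := v)
        (fixS_anti (by intro g hg; exact Or.inl hg) hu)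
        (fixS_anti (by intro g hg; exact Or.inr hg) hv)) v
  obtain ⟨w, w1, w2, w3, hw⟩ := key
  refine ⟨w, ?_, hw.trans ?_⟩
  · have hmem : w ∈ fixS π (((X₁ : Set G) ∪ X₂) ∪ X₃) := by
      intro g hg
      rcases hg with hg | hg
      · exact w1 g hg
      · exact w2 g (Or.inr hg)
    rw [← fixS_closure, Subgroup.closure_union, Subgroup.closure_union, Subgroup.closure_eq,
      Subgroup.closure_eq, Subgroup.closure_eq] at hmem
    exact hmem
  · apply mul_le_mul_of_nonneg_left _ (H219.gapConst_pos hlam0 hlam1).le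
    have a1 := norm_sub_proj_le_of_forall e12
    have a2 := norm_sub_proj_le_of_forall e23
    have a3 := norm_sub_proj_le_of_forall e13
    simp only [hsup] at a1 a2 a3
    linarith

end

end Vale.Agent.P011.H428
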