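import Vale.Agent.P011.H428.Heis

/-!
# The three root subgroups of `SL(ι, F)` and the spectral gap

`F` a field, `O` a subring, `P ⊇ O` an `O`-submodule of `F`; `i₁ ≠ i₂`, `J` = the other indices.
`X₁ = 1 + O e_{i₁ i₂}`, `X₂ = 1 + ∑_{j ∈ J} O e_{i₂ j}`, `X₃ = 1 + ∑_{j ∈ J} P e_{j i₁}`
are pairwise Heisenberg.
-/

open Matrix

namespace Vale.Agent.P011.H428

noncomputable section

variable {ι : Type*} [Fintype ι] [DecidableEq ι] {F : Type*} [Field F]

/-- The matrix `1 + u wᵀ` when `w · u = 0`. -/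
def T (u w : ι → F) (h : w ⬝ᵥ u = 0) : Matrix.SpecialLinearGroup ι F :=
  ⟨1 + vecMulVec u w, by
    rw [vecMulVec_eq Unit, det_one_add_replicateCol_mul_replicateRow, h, add_zero]⟩

theorem slext {x y : Matrix.SpecialLinearGroup ι F}
    (h : (x : Matrix ι ι F) = (y : Matrix ι ι F)) : x = y := Subtype.ext h

theorem coe_T (u w : ι → F) (h : w ⬝ᵥ u = 0) :
    ((T u w h : Matrix.SpecialLinearGroup ι F) : Matrix ι ι F) = 1 + vecMulVec u w := rfl

theorem one_add_mul (u w u' w' : ι → F) :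
    (1 + vecMulVec u w) * (1 + vecMulVec u' w') =
      1 + vecMulVec u w + vecMulVec u' w' + (w ⬝ᵥ u') • vecMulVec u w' := by
  rw [add_mul, mul_add, one_mul, one_mul, mul_add, mul_one, vecMulVec_mul_vecMulVec,
    vecMulVec_smul]
  abel

/-- `{1 + u wᵀ : u ∈ M}` -/
def colSub (w : ι → F) (M : AddSubgroup (ι → F)) (hM : ∀ u ∈ M, w ⬝ᵥ u = 0) :
    Subgroup (Matrix.SpecialLinearGroup ι F) where
  carrier := {g | ∃ u, u ∈ M ∧ (g : Matrix ι ι F) = 1 + vecMulVec u w}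
  mul_mem' := by
    rintro a b ⟨u, hu, ea⟩ ⟨v, hv, eb⟩
    refine ⟨u + v, M.add_mem hu hv, ?_⟩
    rw [Matrix.SpecialLinearGroup.coe_mul, ea, eb, one_add_mul, hM v hv, zero_smul, add_zero,
      add_vecMulVec, add_assoc]
  one_mem' := ⟨0, M.zero_mem, by simp⟩
  inv_mem' := by
    rintro a ⟨u, hu, ea⟩
    refine ⟨-u, M.neg_mem hu, ?_⟩
    have h1 : a * T (-u) w (by rw [dotProduct_neg, hM u hu, neg_zero]) = 1 := by
      apply slext
      rw [Matrix.SpecialLinearGroup.coe_mul, coe_T, ea, one_add_mul, dotProduct_neg, hM u hu, neg_vecMulVec]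
      simp
    rw [inv_eq_of_mul_eq_one_right h1, coe_T]

/-- `{1 + u wᵀ : w ∈ M}` -/
def rowSub (u : ι → F) (M : AddSubgroup (ι → F)) (hM : ∀ w ∈ M, w ⬝ᵥ u = 0) :
    Subgroup (Matrix.SpecialLinearGroup ι F) where
  carrier := {g | ∃ w, w ∈ M ∧ (g : Matrix ι ι F) = 1 + vecMulVec u w}
  mul_mem' := by
    rintro a b ⟨w, hw, ea⟩ ⟨v, hv, eb⟩
    refine ⟨w + v, M.add_mem hw hv, ?_⟩
    rw [Matrix.SpecialLinearGroup.coe_mul, ea, eb, one_add_mul, hM w hw, zero_smul, add_zero,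
      vecMulVec_add, add_assoc]
  one_mem' := ⟨0, M.zero_mem, by simp⟩
  inv_mem' := by
    rintro a ⟨w, hw, ea⟩
    refine ⟨-w, M.neg_mem hw, ?_⟩
    have h1 : a * T u (-w) (by rw [neg_dotProduct, hM w hw, neg_zero]) = 1 := by
      apply slext
      rw [Matrix.SpecialLinearGroup.coe_mul, coe_T, ea, one_add_mul, hM w hw, vecMulVec_neg]
      simp
    rw [inv_eq_of_mul_eq_one_right h1, coe_T]

theorem mem_colSub {w : ι → F} {M : AddSubgroup (ι → F)} {hM : ∀ u ∈ M, w ⬝ᵥ u = 0}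
    {g : Matrix.SpecialLinearGroup ι F} :
    g ∈ colSub w M hM ↔ ∃ u, u ∈ M ∧ (g : Matrix ι ι F) = 1 + vecMulVec u w := Iff.rfl

theorem mem_rowSub {u : ι → F} {M : AddSubgroup (ι → F)} {hM : ∀ w ∈ M, w ⬝ᵥ u = 0}
    {g : Matrix.SpecialLinearGroup ι F} :
    g ∈ rowSub u M hM ↔ ∃ w, w ∈ M ∧ (g : Matrix ι ι F) = 1 + vecMulVec u w := Iff.rfl

/-- commuting -/
theorem comm_aux {x z : Matrix.SpecialLinearGroup ι F} {u w a b : ι → F}
    (hx : (x : Matrix ι ι F) = 1 + vecMulVec u w) (hz : (z : Matrix ι ι F) = 1 + vecMulVec a b)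
    (h1 : w ⬝ᵥ a = 0) (h2 : b ⬝ᵥ u = 0) : z * x = x * z := by
  apply slext
  rw [Matrix.SpecialLinearGroup.coe_mul, Matrix.SpecialLinearGroup.coe_mul, hx, hz, one_add_mul, one_add_mul,
    h1, h2]
  simp only [zero_smul, add_zero]
  abel

/-- `x y = y x z`, `z = 1 + (w·u') u w'ᵀ` when `w'·u = 0`. -/
theorem comm_aux1 {x y z : Matrix.SpecialLinearGroup ι F} {u w u' w' : ι → F}
    (hx : (x : Matrix ι ι F) = 1 + vecMulVec u w) (hy : (y : Matrix ι ι F) = 1 + vecMulVec u' w')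
    (hz : (z : Matrix ι ι F) = 1 + (w ⬝ᵥ u') • vecMulVec u w')
    (h0 : w ⬝ᵥ u = 0) (h2 : w' ⬝ᵥ u = 0) : x * y = y * x * z := by
  apply slext
  rw [Matrix.SpecialLinearGroup.coe_mul, Matrix.SpecialLinearGroup.coe_mul, Matrix.SpecialLinearGroup.coe_mul, hx, hy,
    hz, one_add_mul, one_add_mul, h2, zero_smul, add_zero]
  rw [mul_add, mul_one, mul_smul_comm, add_mul, add_mul, one_mul, vecMulVec_mul_vecMulVec,
    vecMulVec_mul_vecMulVec, h0, h2]
  simp only [zero_smul, vecMulVec_zero, add_zero]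
  abel

/-- `x y = y x z`, `z = 1 - (w'·u) u' wᵀ` when `w·u' = 0`. -/
theorem comm_aux2 {x y z : Matrix.SpecialLinearGroup ι F} {u w u' w' : ι → F}
    (hx : (x : Matrix ι ι F) = 1 + vecMulVec u w) (hy : (y : Matrix ι ι F) = 1 + vecMulVec u' w')
    (hz : (z : Matrix ι ι F) = 1 + (-(w' ⬝ᵥ u)) • vecMulVec u' w)
    (h0 : w' ⬝ᵥ u' = 0) (h2 : w ⬝ᵥ u' = 0) : x * y = y * x * z := by
  apply slext
  rw [Matrix.SpecialLinearGroup.coe_mul, Matrix.SpecialLinearGroup.coe_mul, Matrix.SpecialLinearGroup.coe_mul, hx, hy,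
    hz, one_add_mul, one_add_mul, h2, zero_smul, add_zero]
  rw [mul_add, mul_one, mul_smul_comm, add_mul, add_mul, add_mul, one_mul,
    vecMulVec_mul_vecMulVec, vecMulVec_mul_vecMulVec, smul_mul_assoc, vecMulVec_mul_vecMulVec,
    h0, h2]
  simp only [zero_smul, vecMulVec_zero, add_zero, smul_zero, neg_smul]
  abel

/-- `y⁻¹ x y = x z` from `x y = y x z`. -/
theorem conj_of_comm {G : Type*} [Group G] {x y z : G} (h : x * y = y * x * z) :
    y⁻¹ * x * y = x * z := by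
  rw [mul_assoc, h]; group

variable (i₁ i₂ : ι)

/-- vectors supported on `J = ι \ {i₁, i₂}` with entries in `M`. -/
def rest (M : AddSubgroup F) : AddSubgroup (ι → F) where
  carrier := {b | b i₁ = 0 ∧ b i₂ = 0 ∧ ∀ j, b j ∈ M}
  add_mem' := by
    rintro a b ⟨a1, a2, a3⟩ ⟨b1, b2, b3⟩
    exact ⟨by simp [a1, b1], by simp [a2, b2], fun j => M.add_mem (a3 j) (b3 j)⟩
  zero_mem' := ⟨rfl, rfl, fun _ => M.zero_mem⟩
  neg_mem' := by
    rintro a ⟨a1, a2, a3⟩
    exact ⟨by simp [a1], by simp [a2], fun j => M.neg_mem (a3 j)⟩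

/-- multiples `a • e_i`, `a ∈ M` -/
def line (i : ι) (M : AddSubgroup F) : AddSubgroup (ι → F) where
  carrier := {b | ∃ a, a ∈ M ∧ b = Pi.single i a}
  add_mem' := by
    rintro _ _ ⟨a, ha, rfl⟩ ⟨b, hb, rfl⟩
    exact ⟨a + b, M.add_mem ha hb, by rw [Pi.single_add]⟩
  zero_mem' := ⟨0, M.zero_mem, by simp⟩
  neg_mem' := by
    rintro _ ⟨a, ha, rfl⟩
    exact ⟨-a, M.neg_mem ha, by rw [Pi.single_neg]⟩

variable {i₁ i₂}

omit [Fintype ι] [DecidableEq ι] in
theorem mem_rest {M : AddSubgroup F} {b : ι → F} :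
    b ∈ rest i₁ i₂ M ↔ b i₁ = 0 ∧ b i₂ = 0 ∧ ∀ j, b j ∈ M := Iff.rfl

variable (h12 : i₁ ≠ i₂)

/-- `1 + M e_{i₁ i₂}` -/
def grp12 (M : AddSubgroup F) : Subgroup (Matrix.SpecialLinearGroup ι F) :=
  colSub (Pi.single i₂ 1) (line i₁ M) (by
    rintro _ ⟨a, _, rfl⟩
    simp [h12])

/-- `1 + M e_{i₂ i₁}` -/
def grp21 (M : AddSubgroup F) : Subgroup (Matrix.SpecialLinearGroup ι F) :=
  colSub (Pi.single i₁ 1) (line i₂ M) (by
    rintro _ ⟨a, _, rfl⟩
    simp [h12.symm])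

variable (i₁ i₂)

/-- `1 + ∑ M e_{i₂ j}` -/
def row2 (M : AddSubgroup F) : Subgroup (Matrix.SpecialLinearGroup ι F) :=
  rowSub (Pi.single i₂ 1) (rest i₁ i₂ M) (by
    rintro w ⟨_, h, _⟩
    simp [h])

/-- `1 + ∑ M e_{i₁ j}` -/
def row1 (M : AddSubgroup F) : Subgroup (Matrix.SpecialLinearGroup ι F) :=
  rowSub (Pi.single i₁ 1) (rest i₁ i₂ M) (by
    rintro w ⟨h, _, _⟩
    simp [h])

/-- `1 + ∑ M e_{j i₁}` -/
def col1 (M : AddSubgroup F) : Subgroup (Matrix.SpecialLinearGroup ι F) :=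
  colSub (Pi.single i₁ 1) (rest i₁ i₂ M) (by
    rintro w ⟨h, _, _⟩
    simp [h])

/-- `1 + ∑ M e_{j i₂}` -/
def col2 (M : AddSubgroup F) : Subgroup (Matrix.SpecialLinearGroup ι F) :=
  colSub (Pi.single i₂ 1) (rest i₁ i₂ M) (by
    rintro w ⟨_, h, _⟩
    simp [h])

variable {i₁ i₂}

/-- The pair `(X₁, X₂)`. -/
theorem heis12 (O : Subring F) {q : ℕ} (r : Fin q → F) (hr : ∀ k, r k ∈ O)
    (hr' : ∀ k l, k ≠ l → r l - r k ≠ 0 ∧ (r l - r k)⁻¹ ∈ O) :
    HeisPair (grp12 h12 O.toAddSubgroup) (row2 i₁ i₂ O.toAddSubgroup)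
      (row1 i₁ i₂ O.toAddSubgroup) q where
  comm_left := by
    rintro x ⟨_, ⟨a, ha, rfl⟩, ex⟩ z ⟨b, ⟨b1, b2, b3⟩, ez⟩
    exact comm_aux ex ez (by simp [h12.symm]) (by simp [b1])
  comm_right := by
    rintro y ⟨c, ⟨c1, c2, c3⟩, ey⟩ z ⟨b, ⟨b1, b2, b3⟩, ez⟩
    exact comm_aux ey ez (by simp [c1]) (by simp [b2])
  comm_mem := by
    rintro x ⟨_, ⟨a, ha, rfl⟩, ex⟩ y ⟨b, ⟨b1, b2, b3⟩, ey⟩
    refine ⟨T (Pi.single i₁ 1) (a • b) (by simp [b1]), ⟨a • b, ⟨by simp [b1], by simp [b2],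
      fun j => O.mul_mem ha (b3 j)⟩, rfl⟩, comm_aux1 ex ey ?_ (by simp [h12]) (by simp [b1])⟩
    rw [coe_T]
    congr 1
    ext i j
    by_cases hi : i = i₁
    · subst hi; simp [vecMulVec_apply]
    · simp [vecMulVec_apply, hi]
  reps := by
    refine ⟨fun k => T (Pi.single i₁ (r k)) (Pi.single i₂ 1) (by simp [h12]), fun k =>
      ⟨_, ⟨r k, hr k, rfl⟩, rfl⟩, ?_⟩
    rintro k l hkl z ⟨b, ⟨b1, b2, b3⟩, ez⟩
    obtain ⟨hne, hinv⟩ := hr' k l hkl
    set t := r l - r k with ht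
    have hx : (T (Pi.single i₁ (r k)) (Pi.single i₂ 1) (by simp [h12]) : Matrix.SpecialLinearGroup ι F)⁻¹ *
        T (Pi.single i₁ (r l)) (Pi.single i₂ 1) (by simp [h12]) =
        T (Pi.single i₁ t) (Pi.single i₂ 1) (by simp [h12]) := by
      rw [inv_mul_eq_iff_eq_mul]
      apply slext
      rw [Matrix.SpecialLinearGroup.coe_mul, coe_T, coe_T, coe_T, one_add_mul, add_assoc, add_assoc]
      have : (Pi.single i₂ (1 : F) : ι → F) ⬝ᵥ Pi.single i₁ t = 0 := by simp [h12]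
      rw [this, zero_smul, add_zero, ← add_vecMulVec, ← Pi.single_add, ht, add_sub_cancel]
    refine ⟨T (Pi.single i₂ 1) (t⁻¹ • b) (by simp [b2]), ⟨t⁻¹ • b, ⟨by simp [b1], by simp [b2],
      fun j => O.mul_mem hinv (b3 j)⟩, rfl⟩, ?_⟩
    rw [hx]
    refine conj_of_comm (comm_aux1 rfl rfl ?_ (by simp [h12]) (by simp [b1]))
    rw [ez]
    congr 1
    ext i j
    by_cases hi : i = i₁
    · subst hi; simp [vecMulVec_apply, hne]
    · simp [vecMulVec_apply, hi]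

/-- The pair `(X₂, X₃)`. -/
theorem heis23 (O : Subring F) (P : AddSubgroup F) (hP : ∀ a ∈ O, ∀ x ∈ P, a * x ∈ P) {j₀ : ι}
    (hj1 : j₀ ≠ i₁) (hj2 : j₀ ≠ i₂) {q : ℕ} (r : Fin q → F) (hr : ∀ k, r k ∈ O)
    (hr' : ∀ k l, k ≠ l → r l - r k ≠ 0 ∧ (r l - r k)⁻¹ ∈ O) :
    HeisPair (row2 i₁ i₂ O.toAddSubgroup) (col1 i₁ i₂ P) (grp21 h12 P) q where
  comm_left := by
    rintro x ⟨b, ⟨b1, b2, b3⟩, ex⟩ z ⟨_, ⟨a, ha, rfl⟩, ez⟩
    exact comm_aux ex ez (by simp [b2]) (by simp [h12])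
  comm_right := by
    rintro y ⟨c, ⟨c1, c2, c3⟩, ey⟩ z ⟨_, ⟨a, ha, rfl⟩, ez⟩
    exact comm_aux ey ez (by simp [h12]) (by simp [c1])
  comm_mem := by
    rintro x ⟨b, ⟨b1, b2, b3⟩, ex⟩ y ⟨c, ⟨c1, c2, c3⟩, ey⟩
    have hbc : b ⬝ᵥ c ∈ P := P.sum_mem fun j _ => hP _ (b3 j) _ (c3 j)
    refine ⟨T (Pi.single i₂ (b ⬝ᵥ c)) (Pi.single i₁ 1) (by simp [h12.symm]),
      ⟨_, ⟨b ⬝ᵥ c, hbc, rfl⟩, rfl⟩, comm_aux1 ex ey ?_ (by simp [b2]) (by simp [h12])⟩
    rw [coe_T]
    congr 1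
    ext i j
    by_cases hi : i = i₂
    · subst hi; simp [vecMulVec_apply]
    · simp [vecMulVec_apply, hi]
  reps := by
    refine ⟨fun k => T (Pi.single i₂ 1) (Pi.single j₀ (r k)) (by simp [hj2]), fun k =>
      ⟨_, ⟨by simp [hj1], by simp [hj2], fun j => ?_⟩, rfl⟩, ?_⟩
    · by_cases hj : j = j₀
      · subst hj; simpa using hr k
      · simp [hj]
    rintro k l hkl z ⟨_, ⟨a, ha, rfl⟩, ez⟩
    obtain ⟨hne, hinv⟩ := hr' k l hkl
    set t := r l - r k with ht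
    have hx : (T (Pi.single i₂ 1) (Pi.single j₀ (r k)) (by simp [hj2]) :
        Matrix.SpecialLinearGroup ι F)⁻¹ *
        T (Pi.single i₂ 1) (Pi.single j₀ (r l)) (by simp [hj2]) =
        T (Pi.single i₂ 1) (Pi.single j₀ t) (by simp [hj2]) := by
      rw [inv_mul_eq_iff_eq_mul]
      apply slext
      rw [Matrix.SpecialLinearGroup.coe_mul, coe_T, coe_T, coe_T, one_add_mul, add_assoc, add_assoc]
      have : (Pi.single j₀ (r k) : ι → F) ⬝ᵥ Pi.single i₂ 1 = 0 := by simp [hj2]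
      rw [this, zero_smul, add_zero, ← vecMulVec_add, ← Pi.single_add, ht, add_sub_cancel]
    refine ⟨T (Pi.single j₀ (t⁻¹ * a)) (Pi.single i₁ 1) (by simp [hj1]),
      ⟨_, ⟨by simp [hj1], by simp [hj2], fun j => ?_⟩, rfl⟩, ?_⟩
    · by_cases hj : j = j₀
      · subst hj; simpa using hP _ hinv _ ha
      · simp [hj]
    rw [hx]
    refine conj_of_comm (comm_aux1 rfl rfl ?_ (by simp [hj2]) (by simp [h12]))
    rw [ez]
    congr 1
    ext i j
    by_cases hi : i = i₂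
    · subst hi; simp [vecMulVec_apply, hne]
    · simp [vecMulVec_apply, hi]

/-- The pair `(X₁, X₃)`. -/
theorem heis13 (O : Subring F) (P : AddSubgroup F) (hP : ∀ a ∈ O, ∀ x ∈ P, a * x ∈ P)
    {q : ℕ} (r : Fin q → F) (hr : ∀ k, r k ∈ O)
    (hr' : ∀ k l, k ≠ l → r l - r k ≠ 0 ∧ (r l - r k)⁻¹ ∈ O) :
    HeisPair (grp12 h12 O.toAddSubgroup) (col1 i₁ i₂ P) (col2 i₁ i₂ P) q where
  comm_left := by
    rintro x ⟨_, ⟨a, ha, rfl⟩, ex⟩ z ⟨b, ⟨b1, b2, b3⟩, ez⟩
    exact comm_aux ex ez (by simp [b2]) (by simp [h12])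
  comm_right := by
    rintro y ⟨c, ⟨c1, c2, c3⟩, ey⟩ z ⟨b, ⟨b1, b2, b3⟩, ez⟩
    exact comm_aux ey ez (by simp [b1]) (by simp [c2])
  comm_mem := by
    rintro x ⟨_, ⟨a, ha, rfl⟩, ex⟩ y ⟨c, ⟨c1, c2, c3⟩, ey⟩
    refine ⟨T (-(a • c)) (Pi.single i₂ 1) (by simp [c2]), ⟨_, ⟨by simp [c1], by simp [c2],
      fun j => P.neg_mem (hP _ ha _ (c3 j))⟩, rfl⟩, comm_aux2 ex ey ?_ (by simp [c1])
      (by simp [c2])⟩
    rw [coe_T]
    congr 1
    ext i j
    simp [vecMulVec_apply, mul_assoc]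
  reps := by
    refine ⟨fun k => T (Pi.single i₁ (r k)) (Pi.single i₂ 1) (by simp [h12]), fun k =>
      ⟨_, ⟨r k, hr k, rfl⟩, rfl⟩, ?_⟩
    rintro k l hkl z ⟨b, ⟨b1, b2, b3⟩, ez⟩
    obtain ⟨hne, hinv⟩ := hr' k l hkl
    set t := r l - r k with ht
    have hx : (T (Pi.single i₁ (r k)) (Pi.single i₂ 1) (by simp [h12]) :
        Matrix.SpecialLinearGroup ι F)⁻¹ *
        T (Pi.single i₁ (r l)) (Pi.single i₂ 1) (by simp [h12]) =
        T (Pi.single i₁ t) (Pi.single i₂ 1) (by simp [h12]) := by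
      rw [inv_mul_eq_iff_eq_mul]
      apply slext
      rw [Matrix.SpecialLinearGroup.coe_mul, coe_T, coe_T, coe_T, one_add_mul, add_assoc, add_assoc]
      have : (Pi.single i₂ (1 : F) : ι → F) ⬝ᵥ Pi.single i₁ t = 0 := by simp [h12]
      rw [this, zero_smul, add_zero, ← add_vecMulVec, ← Pi.single_add, ht, add_sub_cancel]
    refine ⟨T (-(t⁻¹ • b)) (Pi.single i₁ 1) (by simp [b1]), ⟨_, ⟨by simp [b1], by simp [b2],
      fun j => P.neg_mem (hP _ hinv _ (b3 j))⟩, rfl⟩, ?_⟩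
    rw [hx]
    refine conj_of_comm (comm_aux2 rfl rfl ?_ (by simp [b1]) (by simp [b2]))
    rw [ez]
    congr 1
    ext i j
    simp [vecMulVec_apply, hne]

/-! ### Generation -/

/-- all elementary matrices `1 + a e_{ij}`, `a ∈ M`, are in `K`. -/
def Has (K : Subgroup (Matrix.SpecialLinearGroup ι F)) (i j : ι) (M : Set F) : Prop :=
  ∀ a ∈ M, ∀ h : i ≠ j, Matrix.SpecialLinearGroup.transvection h a ∈ K

theorem transvection_eq {i j : ι} (h : i ≠ j) (a : F) :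
    ((Matrix.SpecialLinearGroup.transvection h a : Matrix.SpecialLinearGroup ι F) :
      Matrix ι ι F) = 1 + vecMulVec (Pi.single i a) (Pi.single j 1) := by
  rw [Matrix.SpecialLinearGroup.transvection_coe]
  congr 1
  ext x y
  by_cases hx : x = i
  · subst hx
    by_cases hy : y = j
    · subst hy; simp [vecMulVec_apply]
    · simp [vecMulVec_apply, hy, Matrix.single_apply_of_col_ne _ _ (Ne.symm hy)]
  · simp [vecMulVec_apply, hx, Matrix.single_apply_of_row_ne (Ne.symm hx)]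

variable {K : Subgroup (Matrix.SpecialLinearGroup ι F)}

/-- Commutators of elementary matrices. -/
theorem Has.mul {i j k : ι} (hij : i ≠ j) (hjk : j ≠ k) {M N : Set F} (hM : Has K i j M)
    (hN : Has K j k N) {S : Set F} (hS : ∀ s ∈ S, ∃ a ∈ M, ∃ b ∈ N, s = a * b) : Has K i k S := by
  intro s hs hik
  obtain ⟨a, ha, b, hb, rfl⟩ := hS s hs
  have hx := hM a ha hij
  have hy := hN b hb hjk
  have key := comm_aux1 (transvection_eq hij a) (transvection_eq hjk b)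
    (z := Matrix.SpecialLinearGroup.transvection hik (a * b)) (by
      rw [transvection_eq]
      congr 1
      ext x y
      by_cases hx : x = i
      · subst hx; simp [vecMulVec_apply, mul_comm]; ring
      · simp [vecMulVec_apply, hx]) (by simp [hij]) (by simp [hik])
  have e : Matrix.SpecialLinearGroup.transvection hik (a * b) =
      (Matrix.SpecialLinearGroup.transvection hjk b *
        Matrix.SpecialLinearGroup.transvection hij a)⁻¹ *
      (Matrix.SpecialLinearGroup.transvection hij a *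
        Matrix.SpecialLinearGroup.transvection hjk b) := by
    rw [key]; group
  rw [e]
  exact K.mul_mem (K.inv_mem (K.mul_mem hy hx)) (K.mul_mem hx hy)

theorem diag2n_decompose {i j : ι} (hij : i ≠ j) (a : F) (ha : a ≠ 0) :
    Matrix.SpecialLinearGroup.diag2n hij a ha =
      Matrix.SpecialLinearGroup.transvection hij a *
      Matrix.SpecialLinearGroup.transvection hij.symm (- a⁻¹) *
      Matrix.SpecialLinearGroup.transvection hij a *
      Matrix.SpecialLinearGroup.transvection hij (-1) *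
      Matrix.SpecialLinearGroup.transvection hij.symm 1 *
      Matrix.SpecialLinearGroup.transvection hij (-1) := by
  apply slext
  rw [Matrix.SpecialLinearGroup.diag2n_coe]
  simp only [Matrix.SpecialLinearGroup.coe_mul, Matrix.SpecialLinearGroup.transvection_coe,
    mul_add, add_mul, mul_one, one_mul, Matrix.single_mul_single_same,
    Matrix.single_mul_single_of_ne _ _ _ _ hij, Matrix.single_mul_single_of_ne _ _ _ _ hij.symm,
    add_zero]
  ext x y
  simp only [Matrix.add_apply, Matrix.diagonal_apply, Matrix.one_apply, Matrix.single_apply]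
  by_cases h1 : x = i <;> by_cases h2 : x = j <;> by_cases h3 : y = i <;> by_cases h4 : y = j <;>
    (try subst h1) <;> (try subst h2) <;> (try subst h3) <;> (try subst h4) <;>
    simp_all [eq_comm]

/-- A subgroup containing all elementary matrices is everything. -/
theorem eq_top_of_has [Nontrivial ι] (h : ∀ i j, Has K i j Set.univ) : K = ⊤ := by
  rw [eq_top_iff]
  intro g _
  refine Matrix.SpecialLinearGroup.diagonal_transvection_induction' (fun g => g ∈ K) g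
    (fun i j hij c hc => ?_) (fun i j hij a => h i j a trivial hij)
    (fun _ _ ha hb => K.mul_mem ha hb)
  rw [diag2n_decompose]
  have h1 := fun a => h i j a trivial hij
  have h2 := fun a => h j i a trivial hij.symm
  exact K.mul_mem (K.mul_mem (K.mul_mem (K.mul_mem (K.mul_mem (h1 _) (h2 _)) (h1 _)) (h1 _))
    (h2 _)) (h1 _)

/-- `ϖ⁻ⁿ O` -/
def pInv (O : Subring F) (ϖ : F) (n : ℕ) : AddSubgroup F where
  carrier := {x | ϖ ^ n * x ∈ O}
  add_mem' := by
    intro a b ha hb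
    simp only [Set.mem_ofPred_eq, mul_add] at *
    exact O.add_mem ha hb
  zero_mem' := by simp
  neg_mem' := by
    intro a ha
    simp only [Set.mem_ofPred_eq, mul_neg] at *
    exact O.neg_mem ha

omit [Fintype ι] [DecidableEq ι] in
theorem mem_pInv {O : Subring F} {ϖ : F} {n : ℕ} {x : F} : x ∈ pInv O ϖ n ↔ ϖ ^ n * x ∈ O :=
  Iff.rfl

theorem pInv_smul {O : Subring F} {ϖ : F} {n : ℕ} (a : F) (ha : a ∈ O) (x : F)
    (hx : x ∈ pInv O ϖ n) : a * x ∈ pInv O ϖ n := by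
  rw [mem_pInv] at *
  rw [mul_left_comm]
  exact O.mul_mem ha hx

theorem pInv_split {O : Subring F} {ϖ : F} (h0 : ϖ ≠ 0) {n : ℕ} (s : F)
    (hs : s ∈ (pInv O ϖ (n + 1) : Set F)) :
    ∃ a ∈ (pInv O ϖ n : Set F), ∃ b ∈ (pInv O ϖ 1 : Set F), s = a * b := by
  refine ⟨ϖ * s, ?_, ϖ⁻¹, ?_, by field_simp⟩
  · simp only [SetLike.mem_coe, mem_pInv] at *
    rw [pow_succ, mul_assoc] at hs
    exact hs
  · simp only [SetLike.mem_coe, mem_pInv, pow_one]
    rw [mul_inv_cancel₀ h0]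
    exact O.one_mem

/-- The three groups generate `SL(ι, F)`. -/
theorem generate {O : Subring F} {ϖ : F} (hϖ : ϖ ∈ O) (h0 : ϖ ≠ 0)
    (hfrac : ∀ x : F, ∃ n : ℕ, ϖ ^ n * x ∈ O) {j₀ : ι} (hj1 : j₀ ≠ i₁) (hj2 : j₀ ≠ i₂)
    (hX1 : grp12 h12 O.toAddSubgroup ≤ K) (hX2 : row2 i₁ i₂ O.toAddSubgroup ≤ K)
    (hX3 : col1 i₁ i₂ (pInv O ϖ 1) ≤ K) : K = ⊤ := by
  have : Nontrivial ι := ⟨i₁, i₂, h12⟩
  have one_mem : (1 : F) ∈ (pInv O ϖ 1 : Set F) := by
    simp only [SetLike.mem_coe, mem_pInv]; simpa using hϖ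
  have has12 : Has K i₁ i₂ O := by
    intro a ha h
    refine hX1 ⟨Pi.single i₁ a, ⟨a, ha, rfl⟩, transvection_eq h a⟩
  have has2j : ∀ j, j ≠ i₁ → j ≠ i₂ → Has K i₂ j O := by
    intro j hj1 hj2 a ha h
    refine hX2 ⟨Pi.single j a, ⟨by simp [hj1], by simp [hj2], fun k => ?_⟩, ?_⟩
    · by_cases hk : k = j
      · subst hk; simpa using ha
      · simp [hk]
    · rw [transvection_eq]
      congr 1
      ext x y
      by_cases hx : x = i₂
      · subst hx
        by_cases hy : y = j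
        · subst hy; simp [vecMulVec_apply]
        · simp [vecMulVec_apply, hy]
      · simp [vecMulVec_apply, hx]
  have hasj1 : ∀ j, j ≠ i₁ → j ≠ i₂ → Has K j i₁ (pInv O ϖ 1) := by
    intro j hj1 hj2 a ha h
    refine hX3 ⟨Pi.single j a, ⟨by simp [hj1], by simp [hj2], fun k => ?_⟩, transvection_eq h a⟩
    by_cases hk : k = j
    · subst hk; simpa using ha
    · simp [hk]
  -- all six
  have base : ∀ j, j ≠ i₁ → j ≠ i₂ →
      Has K i₁ i₂ (pInv O ϖ 1) ∧ Has K i₂ i₁ (pInv O ϖ 1) ∧ Has K i₁ j (pInv O ϖ 1) ∧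
      Has K j i₁ (pInv O ϖ 1) ∧ Has K i₂ j (pInv O ϖ 1) ∧ Has K j i₂ (pInv O ϖ 1) := by
    intro j a1 a2
    have t1 : Has K i₁ j O := has12.mul h12 a2.symm (has2j j a1 a2) fun s hs =>
      ⟨1, O.one_mem, s, hs, (one_mul s).symm⟩
    have t2 : Has K j i₂ (pInv O ϖ 1) := (hasj1 j a1 a2).mul a1 h12 has12 fun s hs =>
      ⟨s, hs, 1, O.one_mem, (mul_one s).symm⟩
    have t3 : Has K i₂ i₁ (pInv O ϖ 1) := (has2j j a1 a2).mul a2.symm a1 (hasj1 j a1 a2)
      fun s hs => ⟨1, O.one_mem, s, hs, (one_mul s).symm⟩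
    have t4 : Has K i₁ i₂ (pInv O ϖ 1) := t1.mul a1.symm a2 t2
      fun s hs => ⟨1, O.one_mem, s, hs, (one_mul s).symm⟩
    have t5 : Has K i₁ j (pInv O ϖ 1) := t4.mul h12 a2.symm (has2j j a1 a2)
      fun s hs => ⟨s, hs, 1, O.one_mem, (mul_one s).symm⟩
    have t6 : Has K i₂ j (pInv O ϖ 1) := t3.mul h12.symm a1.symm t5
      fun s hs => ⟨s, hs, 1, one_mem, (mul_one s).symm⟩
    exact ⟨t4, t3, t5, hasj1 j a1 a2, t6, t2⟩
  have all : ∀ n : ℕ, ∀ j, j ≠ i₁ → j ≠ i₂ →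
      Has K i₁ i₂ (pInv O ϖ (n + 1)) ∧ Has K i₂ i₁ (pInv O ϖ (n + 1)) ∧
      Has K i₁ j (pInv O ϖ (n + 1)) ∧ Has K j i₁ (pInv O ϖ (n + 1)) ∧
      Has K i₂ j (pInv O ϖ (n + 1)) ∧ Has K j i₂ (pInv O ϖ (n + 1)) := by
    intro n
    induction n with
    | zero => exact base
    | succ n ih =>
      intro j a1 a2
      obtain ⟨p12, p21, p1j, pj1, p2j, pj2⟩ := ih j a1 a2
      obtain ⟨q12, q21, q1j, qj1, q2j, qj2⟩ := base j a1 a2
      exact ⟨p1j.mul a1.symm a2 qj2 (pInv_split h0), p2j.mul a2.symm a1 qj1 (pInv_split h0),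
        p12.mul h12 a2.symm q2j (pInv_split h0), pj2.mul a2 h12.symm q21 (pInv_split h0),
        p21.mul h12.symm a1.symm q1j (pInv_split h0), pj1.mul a1 h12 q12 (pInv_split h0)⟩
  have hall : ∀ x : F, ∃ n : ℕ, x ∈ (pInv O ϖ (n + 1) : Set F) := by
    intro x
    obtain ⟨n, hn⟩ := hfrac x
    refine ⟨n, ?_⟩
    simp only [SetLike.mem_coe, mem_pInv]
    rw [pow_succ', mul_assoc]
    exact O.mul_mem hϖ hn
  have fin : ∀ j, j ≠ i₁ → j ≠ i₂ →
      Has K i₁ i₂ Set.univ ∧ Has K i₂ i₁ Set.univ ∧ Has K i₁ j Set.univ ∧ Has K j i₁ Set.univ ∧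
      Has K i₂ j Set.univ ∧ Has K j i₂ Set.univ := by
    intro j a1 a2
    refine ⟨?_, ?_, ?_, ?_, ?_, ?_⟩ <;> intro x _ h <;> obtain ⟨n, hn⟩ := hall x <;>
      obtain ⟨p12, p21, p1j, pj1, p2j, pj2⟩ := all n j a1 a2
    · exact p12 x hn h
    · exact p21 x hn h
    · exact p1j x hn h
    · exact pj1 x hn h
    · exact p2j x hn h
    · exact pj2 x hn h
  obtain ⟨f12, f21, -⟩ := fin j₀ hj1 hj2
  apply eq_top_of_has
  intro a b
  by_cases ha1 : a = i₁
  · subst ha1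
    by_cases hb : b = a
    · intro _ _ h; exact absurd hb.symm h
    · by_cases hb2 : b = i₂
      · subst hb2; exact f12
      · exact (fin b hb hb2).2.2.1
  · by_cases ha2 : a = i₂
    · subst ha2
      by_cases hb : b = a
      · intro _ _ h; exact absurd hb.symm h
      · by_cases hb1 : b = i₁
        · subst hb1; exact f21
        · exact (fin b hb1 hb).2.2.2.2.1
    · by_cases hb1 : b = i₁
      · subst hb1; exact (fin a ha1 ha2).2.2.2.1
      · by_cases hb2 : b = i₂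
        · subst hb2; exact (fin a ha1 ha2).2.2.2.2.2
        · exact (fin a ha1 ha2).2.2.2.1.mul ha1 (Ne.symm hb1) (fin b hb1 hb2).2.2.1
            fun s _ => ⟨s, trivial, 1, trivial, (mul_one s).symm⟩

/-! ### The subgroups `{g : d g d⁻¹ has entries in O}` -/

/-- `SL(ι, F) ∩ d⁻¹ M(O) d`, `d` diagonal. -/
def parK (O : Subring F) (d : ι → F) (hd : ∀ i, d i ≠ 0) :
    Subgroup (Matrix.SpecialLinearGroup ι F) where
  carrier := {g | ∀ a b, d a * (g : Matrix ι ι F) a b * (d b)⁻¹ ∈ O}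
  mul_mem' := by
    intro g h hg hh a b
    rw [Matrix.SpecialLinearGroup.coe_mul, Matrix.mul_apply, Finset.mul_sum, Finset.sum_mul]
    refine O.sum_mem fun c _ => ?_
    have : d a * ((g : Matrix ι ι F) a c * (h : Matrix ι ι F) c b) * (d b)⁻¹ =
        (d a * (g : Matrix ι ι F) a c * (d c)⁻¹) * (d c * (h : Matrix ι ι F) c b * (d b)⁻¹) := by
      have := hd c
      field_simp
    rw [this]
    exact O.mul_mem (hg a c) (hh c b)
  one_mem' := by
    intro a b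
    rw [Matrix.SpecialLinearGroup.coe_one, Matrix.one_apply]
    split_ifs with hab
    · subst hab; rw [mul_one, mul_inv_cancel₀ (hd a)]; exact O.one_mem
    · simp
  inv_mem' := by
    intro g hg a b
    set M : Matrix ι ι F := diagonal d * (g : Matrix ι ι F) * diagonal (fun i => (d i)⁻¹) with hM
    set N : Matrix ι ι F := diagonal d * ((g⁻¹ : Matrix.SpecialLinearGroup ι F) : Matrix ι ι F) *
      diagonal (fun i => (d i)⁻¹) with hN
    have hMa : ∀ a b, M a b = d a * (g : Matrix ι ι F) a b * (d b)⁻¹ := by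
      intro a b; rw [hM, Matrix.mul_diagonal, Matrix.diagonal_mul]
    have hNa : ∀ a b, N a b = d a * ((g⁻¹ : Matrix.SpecialLinearGroup ι F) : Matrix ι ι F) a b *
        (d b)⁻¹ := by
      intro a b; rw [hN, Matrix.mul_diagonal, Matrix.diagonal_mul]
    have hdd : diagonal (fun i => (d i)⁻¹) * diagonal d = (1 : Matrix ι ι F) := by
      rw [Matrix.diagonal_mul_diagonal, ← Matrix.diagonal_one]
      congr 1
      funext i
      exact inv_mul_cancel₀ (hd i)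
    have hdd' : diagonal d * diagonal (fun i => (d i)⁻¹) = (1 : Matrix ι ι F) := by
      rw [Matrix.diagonal_mul_diagonal, ← Matrix.diagonal_one]
      congr 1
      funext i
      exact mul_inv_cancel₀ (hd i)
    have hgg : (g : Matrix ι ι F) * ((g⁻¹ : Matrix.SpecialLinearGroup ι F) : Matrix ι ι F) = 1 := by
      rw [← Matrix.SpecialLinearGroup.coe_mul, mul_inv_cancel, Matrix.SpecialLinearGroup.coe_one]
    have hMN : M * N = 1 := by
      rw [hM, hN]
      calc diagonal d * (g : Matrix ι ι F) * diagonal (fun i => (d i)⁻¹) *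
            (diagonal d * ((g⁻¹ : Matrix.SpecialLinearGroup ι F) : Matrix ι ι F) *
              diagonal (fun i => (d i)⁻¹)) =
          diagonal d * (g : Matrix ι ι F) * (diagonal (fun i => (d i)⁻¹) * diagonal d) *
            ((g⁻¹ : Matrix.SpecialLinearGroup ι F) : Matrix ι ι F) *
              diagonal (fun i => (d i)⁻¹) := by simp only [Matrix.mul_assoc]
        _ = 1 := by
          rw [hdd, Matrix.mul_one, Matrix.mul_assoc (diagonal d), hgg, Matrix.mul_one, hdd']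
    have hdet : M.det = 1 := by
      rw [hM, Matrix.det_mul, Matrix.det_mul, Matrix.SpecialLinearGroup.det_coe, mul_one,
        ← Matrix.det_mul, hdd', Matrix.det_one]
    have hadj : M.adjugate = N := by
      calc M.adjugate = M.adjugate * (M * N) := by rw [hMN, Matrix.mul_one]
        _ = N := by rw [← Matrix.mul_assoc, Matrix.adjugate_mul, hdet, one_smul, Matrix.one_mul]
    let M' : Matrix ι ι O := fun a b => ⟨M a b, by rw [hMa]; exact hg a b⟩
    have hM' : O.subtype.mapMatrix M' = M := by ext a b; rfl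
    have := RingHom.map_adjugate O.subtype M'
    rw [hM', hadj] at this
    rw [← hNa, ← this]
    exact (M'.adjugate a b).2

theorem mem_parK {O : Subring F} {d : ι → F} {hd : ∀ i, d i ≠ 0}
    {g : Matrix.SpecialLinearGroup ι F} :
    g ∈ parK O d hd ↔ ∀ a b, d a * (g : Matrix ι ι F) a b * (d b)⁻¹ ∈ O := Iff.rfl

theorem mem_parK_of {O : Subring F} {d : ι → F} {hd : ∀ i, d i ≠ 0}
    {g : Matrix.SpecialLinearGroup ι F} {u w : ι → F} (hg : (g : Matrix ι ι F) = 1 + vecMulVec u w)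
    (h : ∀ a b, d a * (u a * w b) * (d b)⁻¹ ∈ O) : g ∈ parK O d hd := by
  intro a b
  rw [hg, Matrix.add_apply, vecMulVec_apply, mul_add, add_mul]
  refine O.add_mem ?_ (h a b)
  rw [Matrix.one_apply]
  split_ifs with hab
  · subst hab; rw [mul_one, mul_inv_cancel₀ (hd a)]; exact O.one_mem
  · simp

/-- **Spectral gap for `SL(ι, F)`, `|ι| ≥ 3`** (no topology, no continuity). `O` a subring of `F`,
`ϖ ∈ O`, `F = ⋃ ϖ⁻ⁿ O`, and `q ≥ 5` elements of `O` with invertible differences. -/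
theorem sl_gap {H : Type*} [NormedAddCommGroup H] [InnerProductSpace ℝ H] [CompleteSpace H]
    (π : Matrix.SpecialLinearGroup ι F →* (H ≃ₗᵢ[ℝ] H)) (h12 : i₁ ≠ i₂) {j₀ : ι}
    (hj1 : j₀ ≠ i₁) (hj2 : j₀ ≠ i₂)
    {O : Subring F} {ϖ : F} (hϖ : ϖ ∈ O) (h0 : ϖ ≠ 0) (hfrac : ∀ x : F, ∃ n : ℕ, ϖ ^ n * x ∈ O)
    {q : ℕ} (hq : 5 ≤ q) (r : Fin q → F) (hr : ∀ k, r k ∈ O)
    (hr' : ∀ k l, k ≠ l → r l - r k ≠ 0 ∧ (r l - r k)⁻¹ ∈ O) (v : H) {η₀ η₁ η₂ : ℝ}
    (e0 : ∀ g : Matrix.SpecialLinearGroup ι F, (∀ a b, (g : Matrix ι ι F) a b ∈ O) →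
      ‖π g v - v‖ ≤ η₀)
    (e1 : ∀ g ∈ parK O (fun i => if i = i₁ then (1 : F) else ϖ)
      (fun i => by split_ifs <;> simp [h0]), ‖π g v - v‖ ≤ η₁)
    (e2 : ∀ g ∈ parK O (fun i => if i = i₁ ∨ i = i₂ then (1 : F) else ϖ)
      (fun i => by split_ifs <;> simp [h0]), ‖π g v - v‖ ≤ η₂) :
    ∃ w, (∀ g, π g w = w) ∧ ‖v - w‖ ≤ H219.gapConst (√q)⁻¹ * (η₀ + η₁ + η₂) := by
  have hP := fun a (ha : a ∈ O) x (hx : x ∈ pInv O ϖ 1) => pInv_smul a ha x hx
  have g1 := heis12 h12 O r hr hr'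
  have g2 := heis23 h12 O (pInv O ϖ 1) hP hj1 hj2 r hr hr'
  have g3 := heis13 h12 O (pInv O ϖ 1) hP r hr hr'
  have c12 : grp12 h12 O.toAddSubgroup ⊔ row2 i₁ i₂ O.toAddSubgroup ≤
      parK O (fun _ : ι => (1 : F)) (fun _ => one_ne_zero) := by
    refine sup_le ?_ ?_
    · rintro g ⟨_, ⟨a, ha, rfl⟩, eg⟩
      refine mem_parK_of eg fun x y => ?_
      by_cases hx : x = i₁ <;> by_cases hy : y = i₂ <;> simp [hx, hy]
      exact ha
    · rintro g ⟨b, ⟨b1, b2, b3⟩, eg⟩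
      refine mem_parK_of eg fun x y => ?_
      by_cases hx : x = i₂ <;> simp [hx]
      exact b3 y
  have c23 : row2 i₁ i₂ O.toAddSubgroup ⊔ col1 i₁ i₂ (pInv O ϖ 1) ≤
      parK O (fun i => if i = i₁ then (1 : F) else ϖ)
        (fun i => by split_ifs <;> simp [h0]) := by
    refine sup_le ?_ ?_
    · rintro g ⟨b, ⟨b1, b2, b3⟩, eg⟩
      refine mem_parK_of eg fun x y => ?_
      by_cases hx : x = i₂
      · subst hx
        by_cases hy : y = i₁
        · subst hy; simp [b1]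
        · have : ϖ * (1 * b y) * ϖ⁻¹ = b y := by field_simp
          simp only [if_neg h12.symm, if_neg hy, Pi.single_eq_same, this]
          exact b3 y
      · simp [hx]
    · rintro g ⟨c, ⟨c1, c2, c3⟩, eg⟩
      refine mem_parK_of eg fun x y => ?_
      by_cases hy : y = i₁
      · subst hy
        by_cases hx : x = y
        · subst hx; simp [c1]
        · have := c3 x
          rw [mem_pInv, pow_one] at this
          simpa [hx] using this
      · simp [hy]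
  have c13 : grp12 h12 O.toAddSubgroup ⊔ col1 i₁ i₂ (pInv O ϖ 1) ≤
      parK O (fun i => if i = i₁ ∨ i = i₂ then (1 : F) else ϖ)
        (fun i => by split_ifs <;> simp [h0]) := by
    refine sup_le ?_ ?_
    · rintro g ⟨_, ⟨a, ha, rfl⟩, eg⟩
      refine mem_parK_of eg fun x y => ?_
      by_cases hx : x = i₁
      · by_cases hy : y = i₂
        · subst hx; subst hy; simpa using ha
        · simp [Pi.single_apply, hy]
      · simp [Pi.single_apply, hx]
    · rintro g ⟨c, ⟨c1, c2, c3⟩, eg⟩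
      refine mem_parK_of eg fun x y => ?_
      by_cases hy : y = i₁
      · subst hy
        by_cases hx : x = y
        · subst hx; simp [c1]
        · by_cases hx2 : x = i₂
          · subst hx2; simp [c2]
          · have := c3 x
            rw [mem_pInv, pow_one] at this
            simpa [hx, hx2] using this
      · simp [hy]
  obtain ⟨w, hw, hvw⟩ := three_heis_gap (π := π) hq g1 g2 g3 v (η₁₂ := η₀) (η₂₃ := η₁)
    (η₁₃ := η₂)
    (fun g hg => e0 g fun a b => by simpa using c12 hg a b)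
    (fun g hg => e1 g (c23 hg)) (fun g hg => e2 g (c13 hg))
  refine ⟨w, fun g => hw g ?_, hvw⟩
  have := generate h12 hϖ h0 hfrac hj1 hj2
    (K := grp12 h12 O.toAddSubgroup ⊔ row2 i₁ i₂ O.toAddSubgroup ⊔ col1 i₁ i₂ (pInv O ϖ 1))
    (le_sup_left.trans le_sup_left) (le_sup_right.trans le_sup_left) le_sup_right
  rw [this]
  trivial

end

end Vale.Agent.P011.H428
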